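import Vale.Agent.P155.S743T.Approx
import Vale.Agent.P155.K.Disc

/-!
# P155, (X), block (A): geometry of approximations which do not stay near `Ω`

If the polygons of Temperleyan approximations do not stay in small neighbourhoods of the bounded
domain `Ω`, infinitely many of them contain a fixed ball far from `Ω`.
-/

namespace Vale.Agent.P155.NT924

open Filter Topology TopologicalSpace

/-- compact sets whose frontiers are close to the frontier of a bounded set are bounded -/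
theorem bdd_of_haus {Ω : Set ℂ} (hb : Bornology.IsBounded Ω) (D : ℕ → Set ℂ)
    (hD : ∀ n, IsCompact (D n))
    (haus₁ : ∀ ε > 0, ∀ᶠ n in atTop, frontier (D n) ⊆ Metric.thickening ε (frontier Ω)) :
    ∃ M > 0, ∀ᶠ n in atTop, D n ⊆ Metric.closedBall 0 M := by
  obtain ⟨M0, hM0⟩ := hb.subset_closedBall 0
  have hcl : closure Ω ⊆ Metric.closedBall 0 M0 :=
    closure_minimal hM0 Metric.isClosed_closedBall
  set M : ℝ := |M0| + 2 with hM
  have hM0' : M0 ≤ |M0| := le_abs_self _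
  have hMpos : 0 < M := by positivity
  have hfar : ∀ z : ℂ, M ≤ ‖z‖ → ∀ y ∈ closure Ω, 2 ≤ dist z y := by
    intro z hz y hy
    have h1 := hcl hy
    rw [mem_closedBall_zero_iff] at h1
    have h2 : ‖z‖ ≤ ‖z - y‖ + ‖y‖ := by
      calc ‖z‖ = ‖(z - y) + y‖ := by ring_nf
        _ ≤ _ := norm_add_le _ _
    rw [dist_eq_norm]
    linarith
  refine ⟨M, hMpos, ?_⟩
  filter_upwards [haus₁ 1 one_pos] with n hn1
  have hfr1 : ∀ z ∈ frontier (D n), ‖z‖ < M := by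
    intro z hz
    obtain ⟨y, hy, hzy⟩ := Metric.mem_thickening_iff.1 (hn1 hz)
    by_contra hge
    have := hfar z (not_lt.1 hge) y (frontier_subset_closure hy)
    linarith
  intro z hzD
  rw [mem_closedBall_zero_iff]
  by_contra hlt
  have hz : M ≤ ‖z‖ := (not_le.1 hlt).le
  obtain ⟨r, hr⟩ := (hD n).isBounded.subset_closedBall 0
  have hz0 : 0 < ‖z‖ := hMpos.trans_le hz
  have hdis : Disjoint ((fun t : ℝ => (t : ℂ) * z) '' Set.Ici 1) (frontier (D n)) := by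
    rw [Set.disjoint_left]
    rintro _ ⟨t, ht, rfl⟩ hf
    have h1 := hfr1 _ hf
    have ht1 : (1 : ℝ) ≤ t := ht
    simp only [norm_mul, Complex.norm_real, Real.norm_eq_abs] at h1
    rw [abs_of_nonneg (by linarith)] at h1
    nlinarith
  have hbig : ((|r| / ‖z‖ + 1 + 1 / ‖z‖ : ℝ) : ℂ) * z ∉ D n := by
    intro hmem
    have h1 := hr hmem
    rw [mem_closedBall_zero_iff, norm_mul, Complex.norm_real, Real.norm_eq_abs,
      abs_of_nonneg (by positivity), add_mul, add_mul, div_mul_cancel₀ _ hz0.ne',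
      div_mul_cancel₀ _ hz0.ne'] at h1
    have := le_abs_self r
    linarith
  have := disjoint_of_frontier (ray_preconn z) (hD n).isClosed hdis
    ⟨|r| / ‖z‖ + 1 + 1 / ‖z‖, by
      show (1 : ℝ) ≤ _
      have : 0 ≤ |r| / ‖z‖ := by positivity
      have : 0 < 1 / ‖z‖ := by positivity
      linarith, rfl⟩ hbig
  exact Set.disjoint_left.1 this ⟨1, Set.self_mem_Ici, by simp⟩ hzD

/-- a ball which does not meet the frontier and contains a point of `D` lies in `D` -/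
theorem ball_subset_of {D : Set ℂ} (hD : IsClosed D) {z : ℂ} {r : ℝ}
    (hf : Disjoint (Metric.ball z r) (frontier D)) {w : ℂ} (hw : w ∈ Metric.ball z r)
    (hwD : w ∈ D) : Metric.ball z r ⊆ D := by
  intro y hy
  by_contra hyD
  exact Set.disjoint_left.1 (disjoint_of_frontier
    (convex_ball z r).isPreconnected hD hf hy hyD) hw hwD

/-- **Block (A)**, general form. -/
theorem not_outer_gen {Ω : Set ℂ} (hb : Bornology.IsBounded Ω) (D : ℕ → Set ℂ)
    (hD : ∀ n, IsCompact (D n))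
    (haus₁ : ∀ ε > 0, ∀ᶠ n in atTop, frontier (D n) ⊆ Metric.thickening ε (frontier Ω))
    (hno : ¬ ∀ ε > 0, ∀ᶠ n in atTop, D n ⊆ Metric.thickening ε Ω) :
    ∃ z : ℂ, ∃ ρ > 0, (∀ w ∈ Ω, 8 * ρ ≤ dist w z) ∧
      ∃ᶠ n in atTop, Metric.ball z (8 * ρ) ⊆ D n := by
  obtain ⟨M, hM, hMD⟩ := bdd_of_haus hb D hD haus₁
  push Not at hno
  obtain ⟨ε, hε, hfr⟩ := hno
  set Kc : Set ℂ := Metric.closedBall 0 M ∩ (Metric.thickening ε Ω)ᶜ with hKc
  have hKcomp : IsCompact Kc :=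
    (isCompact_closedBall 0 M).inter_right Metric.isOpen_thickening.isClosed_compl
  -- a point near which infinitely many `D n` have a point
  have hex : ∃ z ∈ Kc, ∃ᶠ n in atTop, (D n ∩ Metric.ball z (ε / 4)).Nonempty := by
    by_contra hcon
    push Not at hcon
    obtain ⟨t, htK, htc⟩ := hKcomp.elim_nhds_subcover (fun z => Metric.ball z (ε / 4))
      (fun z _ => Metric.ball_mem_nhds z (by positivity))
    have hall : ∀ᶠ n in atTop, ∀ z ∈ t, ¬ (D n ∩ Metric.ball z (ε / 4)).Nonempty := by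
      rw [Filter.eventually_all_finset]
      intro z hz
      have := hcon z (htK z hz)
      simpa [Set.not_nonempty_iff_eq_empty] using this
    have hev : ∀ᶠ n in atTop, D n ⊆ Metric.thickening ε Ω := by
      filter_upwards [hall, hMD] with n h1 h2 w hw
      by_contra hwt
      obtain ⟨z, hz, hwz⟩ := Set.mem_iUnion₂.1 (htc ⟨h2 hw, hwt⟩)
      exact h1 z hz ⟨w, hw, hwz⟩
    exact hfr (hev.mono fun n h => not_not.2 h)
  obtain ⟨z, hzK, hzf⟩ := hex
  have hzΩ : ∀ w ∈ Ω, ε ≤ dist w z := by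
    intro w hw
    by_contra hlt
    exact hzK.2 (Metric.mem_thickening_iff.2 ⟨w, hw, by rw [dist_comm]; exact not_le.1 hlt⟩)
  refine ⟨z, ε / 16, by positivity, fun w hw => by linarith [hzΩ w hw], ?_⟩
  have he : 8 * (ε / 16) = ε / 2 := by ring
  rw [he]
  refine (hzf.and_eventually (haus₁ (ε / 4) (by positivity))).mono ?_
  rintro n ⟨⟨w, hwD, hwz⟩, hn⟩
  refine ball_subset_of (hD n).isClosed ?_
    (Metric.ball_subset_ball (by linarith) hwz : w ∈ Metric.ball z (ε / 2)) hwD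
  rw [Set.disjoint_left]
  intro y hy hyf
  obtain ⟨f, hf, hyf'⟩ := Metric.mem_thickening_iff.1 (hn hyf)
  obtain ⟨v, hv, hvf⟩ := Metric.mem_closure_iff.1 (frontier_subset_closure hf) (ε / 8)
    (by positivity)
  have h1 := hzΩ v hv
  rw [Metric.mem_ball] at hy
  have h2 : dist v z ≤ dist v f + dist f y + dist y z :=
    (dist_triangle v f z).trans (by linarith [dist_triangle f y z])
  rw [dist_comm v f, dist_comm f y] at h2
  linarith

/-- **Block (A)**: if `S` violates the condition `Outer`, infinitely many polygons contain a fixed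
ball far from `Ω`. -/
theorem not_outer {Ω : Set ℂ} (hb : Bornology.IsBounded Ω) (S : Approx Ω)
    (hno : ¬ ∀ ε > 0, ∀ᶠ n in atTop,
      region (S.δ n) (S.a n) (S.T n).faceSet ⊆ Metric.thickening ε Ω) :
    ∃ z : ℂ, ∃ ρ > 0, (∀ w ∈ Ω, 8 * ρ ≤ dist w z) ∧
      ∃ᶠ n in atTop, Metric.ball z (8 * ρ) ⊆ region (S.δ n) (S.a n) (S.T n).faceSet :=
  not_outer_gen hb _
    (fun n => KConn.isCompact_region (S.pos n) (A1.faceSet_finite (S.T n))) S.haus₁ hno

/-! ### discrete form -/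

/-- the ball lies in the interior, so all squares which meet it are faces of the polygon -/
theorem face_of_ball {δ : ℝ} (hδ : 0 < δ) {a z : ℂ} {r : ℝ} {Q : Set Pt}
    (h : Metric.ball z r ⊆ region δ a Q) {y : Pt} {w : ℂ} (hw : w ∈ sqr δ a y)
    (hwz : dist w z < r) : y ∈ Q :=
  (KConn.mem_interior_region_iff hδ).1
    ((Metric.isOpen_ball.subset_interior_iff.2 h) (Metric.mem_ball.2 hwz)) y hw

/-- faces close to the cell of the centre -/
theorem dist_pos_le {δ : ℝ} (hδ : 0 < δ) (a z : ℂ) (y : Pt) :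
    dist (K.pos δ a y) z ≤ 2 * δ * (dinf (K.cell δ a z) y : ℝ) + 2 * δ := by
  have h1 := K.norm_pos_le hδ a (K.cell δ a z) y
  have h2 := K.norm_sub_pos_cell hδ a z
  rw [dist_eq_norm]
  calc ‖K.pos δ a y - z‖ = ‖(K.pos δ a y - K.pos δ a (K.cell δ a z)) -
        (z - K.pos δ a (K.cell δ a z))‖ := by congr 1; ring
    _ ≤ _ := (norm_sub_le _ _).trans (by linarith)

/-- the distance of the cell of the centre to the complement -/
theorem dF_cell_ge {δ : ℝ} (hδ : 0 < δ) {a z : ℂ} {r : ℝ} {Q : Set Pt} (hQ : Q.Finite)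
    (h : Metric.ball z r ⊆ region δ a Q) :
    r ≤ 2 * δ * (dF Q (K.cell δ a z) : ℝ) + 2 * δ := by
  obtain ⟨q, hq, hqd⟩ := G45.exists_dF (G45.exists_notMem hQ) (K.cell δ a z)
  have h1 := dist_pos_le hδ a z q
  have h6 : ((dinf (K.cell δ a z) q : ℤ) : ℝ) = (dF Q (K.cell δ a z) : ℝ) := by
    rw [← hqd]
    unfold dn
    have h7 := K.dinf_nonneg (K.cell δ a z) q
    have h8 : (((dinf (K.cell δ a z) q).toNat : ℕ) : ℤ) = dinf (K.cell δ a z) q :=
      Int.toNat_of_nonneg h7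
    exact_mod_cast h8.symm
  rw [h6] at h1
  by_contra hlt
  exact hq (face_of_ball hδ h (K.pos_mem_sqr a q) (by linarith))

/-- the boxes around the cell of the centre lie in the ball -/
theorem pos_mem_ball {δ : ℝ} (hδ : 0 < δ) {a z : ℂ} {r : ℝ} {m : ℕ} (hm : 2 * δ * (m + 1) < r)
    {y : Pt} (hy : y ∈ box (K.cell δ a z) m) : K.pos δ a y ∈ Metric.ball z r := by
  rw [Metric.mem_ball]
  refine (dist_pos_le hδ a z y).trans_lt ?_
  rw [K.mem_box] at hy
  have : ((dinf (K.cell δ a z) y : ℤ) : ℝ) ≤ m := by exact_mod_cast hy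
  nlinarith

/-- a uniform bound for the polygons of normalised approximations -/
theorem norm_bdd {Ω : Set ℂ} (hb : Bornology.IsBounded Ω) (S : TempApprox₀ Ω) :
    ∃ A0 > 0, ∀ᶠ n in atTop, (∀ y ∈ (S.T n).faceSet, ∀ z ∈ sqr (S.δ n) (S.a n) y,
      ‖z‖ + ‖S.a n‖ ≤ A0) ∧ ∀ A : ℝ, A0 ≤ A → ∀ R : ℕ, A / S.δ n ≤ R →
      Skel.Fits (S.T n) R := by
  obtain ⟨M, hM, h1⟩ := bdd_of_haus hb _
    (fun n => KConn.isCompact_region (S.pos n) (A1.faceSet_finite (S.T n))) S.haus₁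
  obtain ⟨Ca, hCa⟩ := S.bdd
  have hCa0 : 0 ≤ Ca := (norm_nonneg _).trans (hCa 0)
  refine ⟨M + Ca, by positivity, ?_⟩
  filter_upwards [h1] with n hn
  have hface : ∀ y ∈ (S.T n).faceSet, ∀ z ∈ sqr (S.δ n) (S.a n) y, ‖z‖ + ‖S.a n‖ ≤ M + Ca := by
    intro y hy z hz
    have h2 := hn (Set.mem_iUnion₂.2 ⟨y, hy, hz⟩ : z ∈ region (S.δ n) (S.a n) (S.T n).faceSet)
    rw [mem_closedBall_zero_iff] at h2
    linarith [hCa n]
  refine ⟨hface, fun A hA R hR y hy => ?_⟩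
  exact K.mem_box_of_pos (S.pos n) hR ((hface y hy _ (K.pos_mem_sqr _ _)).trans hA)

/-- **Block (A), discrete form.** For the normalised approximations: there are a point `z` at
distance `≥ 8 ρ` of `Ω` and a constant `A0` such that for infinitely many `n` the polygon contains
the ball `B(z, 8ρ)` and, for every `A ≥ A0`, with `R = ⌈A/δ⌉₊` and `x` the cell of `z`:
`Fits (T n) R`, `x` is a face at distance `≥ 2ρ/δ` of the complement, `δ R ≤ A + 1`. -/
theorem not_outer_disc {Ω : Set ℂ} (hb : Bornology.IsBounded Ω) (S : Approx Ω)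
    (hno : ¬ ∀ ε > 0, ∀ᶠ n in atTop,
      region (S.δ n) (S.a n) (S.T n).faceSet ⊆ Metric.thickening ε Ω) :
    ∃ z : ℂ, ∃ ρ > 0, ∃ A0 > 0, (∀ w ∈ Ω, 8 * ρ ≤ dist w z) ∧ ∃ᶠ n in atTop,
      S.norm.δ n < min ρ 1 ∧
      Metric.ball z (8 * ρ) ⊆ region (S.norm.δ n) (S.norm.a n) (S.norm.T n).faceSet ∧
      (∀ y ∈ (S.norm.T n).faceSet, ∀ z ∈ sqr (S.norm.δ n) (S.norm.a n) y,
        ‖z‖ + ‖S.norm.a n‖ ≤ A0) ∧
      (∀ y ∈ box (K.cell (S.norm.δ n) (S.norm.a n) z) ⌊2 * ρ / S.norm.δ n⌋₊,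
        y ∈ (S.norm.T n).faceSet ∧ K.pos (S.norm.δ n) (S.norm.a n) y ∈ Metric.ball z (7 * ρ)) ∧
      2 * ρ ≤ S.norm.δ n * (dF (S.norm.T n).faceSet (K.cell (S.norm.δ n) (S.norm.a n) z) : ℝ) ∧
      ∀ A : ℝ, A0 ≤ A → Skel.Fits (S.norm.T n) ⌈A / S.norm.δ n⌉₊ ∧ 1 ≤ ⌈A / S.norm.δ n⌉₊ ∧
        S.norm.δ n * (⌈A / S.norm.δ n⌉₊ : ℝ) ≤ A + 1 ∧ A ≤ S.norm.δ n * (⌈A / S.norm.δ n⌉₊ : ℝ) ∧
        2 * ρ / (A + 1) * (⌈A / S.norm.δ n⌉₊ : ℝ) ≤
          dF (S.norm.T n).faceSet (K.cell (S.norm.δ n) (S.norm.a n) z) := by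
  obtain ⟨z, ρ, hρ, hz, hfr⟩ := not_outer hb S hno
  obtain ⟨A0, hA0, hev⟩ := norm_bdd hb S.norm
  refine ⟨z, ρ, hρ, A0, hA0, hz, ?_⟩
  have hδ : ∀ᶠ n in atTop, S.norm.δ n < min ρ 1 :=
    (tendsto_order.1 S.norm.mesh).2 _ (by positivity)
  refine (hfr.and_eventually (hev.and hδ)).mono ?_
  rintro n ⟨hball, ⟨hface, hfits⟩, hd1⟩
  rw [← S.region_norm n] at hball
  have hd := S.norm.pos n
  have hd2 : S.norm.δ n < ρ := hd1.trans_le (min_le_left _ _)
  have hd3 : S.norm.δ n < 1 := hd1.trans_le (min_le_right _ _)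
  have hdF := dF_cell_ge hd (A1.faceSet_finite (S.norm.T n)) hball
  have hdF' : 2 * ρ ≤ S.norm.δ n *
      (dF (S.norm.T n).faceSet (K.cell (S.norm.δ n) (S.norm.a n) z) : ℝ) := by linarith
  refine ⟨hd1, hball, hface, ?_, hdF', ?_⟩
  · intro y hy
    have hm : ((⌊2 * ρ / S.norm.δ n⌋₊ : ℕ) : ℝ) ≤ 2 * ρ / S.norm.δ n :=
      Nat.floor_le (by positivity)
    have hm' : S.norm.δ n * ((⌊2 * ρ / S.norm.δ n⌋₊ : ℕ) : ℝ) ≤ 2 * ρ := by
      rwa [le_div_iff₀ hd, mul_comm] at hm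
    have h1 := pos_mem_ball hd (r := 7 * ρ) (m := ⌊2 * ρ / S.norm.δ n⌋₊) (by linarith) hy
    exact ⟨face_of_ball hd hball (K.pos_mem_sqr _ _)
      ((Metric.mem_ball.1 h1).trans_le (by linarith)), h1⟩
  · intro A hA
    have hA' : 0 < A := hA0.trans_le hA
    have hR1 : (⌈A / S.norm.δ n⌉₊ : ℝ) < A / S.norm.δ n + 1 := Nat.ceil_lt_add_one (by positivity)
    have hR2 : A / S.norm.δ n ≤ (⌈A / S.norm.δ n⌉₊ : ℝ) := Nat.le_ceil _
    have hR3 : S.norm.δ n * (⌈A / S.norm.δ n⌉₊ : ℝ) ≤ A + 1 := by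
      calc S.norm.δ n * (⌈A / S.norm.δ n⌉₊ : ℝ) ≤ S.norm.δ n * (A / S.norm.δ n + 1) := by gcongr
        _ = A + S.norm.δ n := by field_simp
        _ ≤ A + 1 := by linarith
    have hR4 : A ≤ S.norm.δ n * (⌈A / S.norm.δ n⌉₊ : ℝ) := by
      rwa [div_le_iff₀ hd, mul_comm] at hR2
    refine ⟨hfits A hA _ hR2, Nat.one_le_iff_ne_zero.2 (Nat.ceil_pos.2 (by positivity)).ne', hR3,
      hR4, ?_⟩
    rw [div_mul_eq_mul_div, div_le_iff₀ (by positivity)]
    refine le_of_mul_le_mul_left (a := S.norm.δ n) ?_ hd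
    calc S.norm.δ n * (2 * ρ * (⌈A / S.norm.δ n⌉₊ : ℝ)) =
          (S.norm.δ n * (⌈A / S.norm.δ n⌉₊ : ℝ)) * (2 * ρ) := by ring
      _ ≤ (A + 1) * (S.norm.δ n *
          (dF (S.norm.T n).faceSet (K.cell (S.norm.δ n) (S.norm.a n) z) : ℝ)) := by gcongr
      _ = _ := by ring

end Vale.Agent.P155.NT924
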