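import Vale.Agent.P155.H878.Q1Stmt
import Vale.Agent.P155.U.Iface

/-!
# P155: conformal radii and iteration, definitions and literal statements of the blocks
-/

namespace Vale.Agent.P155.YD

open MeasureTheory Filter Topology TopologicalSpace Vale.Agent.P155 Vale.Agent.P155.Q1

/-! ## Definitions used in the final statement -/

/-- The conformal radius of `U` seen from `z`: the supremum of `|f'(0)|` over all holomorphic
maps `f` from the unit disc to `U` with `f 0 = z`. -/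
noncomputable def crad (U : Set ℂ) (z : ℂ) : ℝ :=
  sSup {r : ℝ | ∃ f : ℂ → ℂ, DifferentiableOn ℂ f (Metric.ball 0 1) ∧
    Set.MapsTo f (Metric.ball 0 1) U ∧ f 0 = z ∧ r = ‖deriv f 0‖}

/-- The hole of `K` in `Ω` around `z` (empty if `z ∈ K`). -/
def hole (Ω K : Set ℂ) (z : ℂ) : Set ℂ := connectedComponentIn (Ω \ K) z

/-- The decrease of the logarithm of the conformal radius between the holes of `K` and `K'`. -/
noncomputable def ldec (Ω K K' : Set ℂ) (z : ℂ) : ℝ :=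
  Real.log (crad (hole Ω K z) z) - Real.log (crad (hole Ω K' z) z)

/-- The nested CLE₄ `Γ` with its carpets `G` and signs `ξ` (the body of `IsNestedCLE4`). -/
structure Nested {Θ : Type} [MeasurableSpace Θ] (P : Measure Θ) (Ω : Set ℂ)
    (G : ℕ → Θ → NonemptyCompacts ℂ) (ξ : ℕ → ℕ → Θ → ℝ) (Γ : Θ → LoopColl) : Prop where
  prob : IsProbabilityMeasure P
  meas : AEMeasurable Γ P
  loops : ∀ᵐ x ∂P, HoleLoops Ω (fun k => G k x) (Γ x)
  measξ : ∀ k i, Measurable (ξ k i)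
  sgn : ∀ k i x, ξ k i x = 1 ∨ ξ k i x = -1
  fair : ∀ k i, P {x | ξ k i x = 1} = 1 / 2
  indξ : ProbabilityTheory.iIndepFun (fun p : ℕ × ℕ => ξ p.1 p.2) P
  measG : ∀ k, @Measurable _ _ _ (borel (NonemptyCompacts ℂ)) (G k)
  indG : ProbabilityTheory.Indep (⨆ p : ℕ × ℕ, MeasurableSpace.comap (ξ p.1 p.2) inferInstance)
      (⨆ k : ℕ, MeasurableSpace.comap (G k) (borel (NonemptyCompacts ℂ))) P
  carp : IsSignedCarpets P Ω G
    (fun k x φ => ∫ z, height Ω (fun j => G j x) (fun j i => ξ j i x) k z * φ z)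

/-- The law of a nested CLE₄ with carpets and signs. -/
theorem isNestedCLE4_iff {Ω : Set ℂ} {μ : Measure LoopColl} : IsNestedCLE4 Ω μ ↔
    ∃ (Θ : Type) (_ : MeasurableSpace Θ) (P : Measure Θ) (G : ℕ → Θ → NonemptyCompacts ℂ)
      (ξ : ℕ → ℕ → Θ → ℝ) (Γ : Θ → LoopColl), Nested P Ω G ξ Γ ∧ μ = P.map Γ := by
  constructor
  · rintro ⟨Θ, i, P, G, ξ, Γ, h1, h2, h3, h4, h5, h6, h7, h8, h9, h10, h11⟩
    exact ⟨Θ, i, P, G, ξ, Γ, ⟨h1, h2, h4, h5, h6, h7, h8, h9, h10, h11⟩, h3⟩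
  · rintro ⟨Θ, i, P, G, ξ, Γ, h, h3⟩
    exact ⟨Θ, i, P, G, ξ, Γ, h.prob, h.meas, h3, h.loops, h.measξ, h.sgn, h.fair, h.indξ,
      h.measG, h.indG, h.carp⟩

/-- The loop `l` lies in `U`. -/
def LIn (l : Loop) (U : Set ℂ) : Prop :=
  ∀ γ : PL, SeparationQuotient.mk γ = l → Set.range γ.c ⊆ U

open Classical in
/-- The loops of `Γ` lying in `U`. -/
noncomputable def inside (Γ : LoopColl) (U : Set ℂ) : LoopColl where
  mult l := if LIn l U then Γ.mult l else 0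
  nonconst l h := Γ.nonconst l (by
    intro h0
    apply h
    simp [h0])
  fin ε hε := (Γ.fin ε hε).subset (by
    rintro l ⟨h1, h2⟩
    refine ⟨?_, h2⟩
    intro h0
    apply h1
    simp [h0])

/-- **(R)** The log conformal radii: no point is in a carpet, and given the first `k` carpets the
decrement `T = log CR(z, U_k) - log CR(z, U_{k+1})` has
`E exp (s T) = 1 / cos (π √(2 s))`, `0 ≤ s < 1/8`: the law of the exit time of Brownian motion from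
`(-π, π)` (Schramm-Sheffield-Wilson law of the conformal radii of CLE_κ for `κ = 4`). -/
def Radii {Θ : Type} [MeasurableSpace Θ] (P : Measure Θ) (Ω : Set ℂ)
    (G : ℕ → Θ → NonemptyCompacts ℂ) : Prop :=
  ∀ z ∈ Ω, (∀ᵐ x ∂P, ∀ k, z ∉ (G k x : Set ℂ)) ∧
    ∀ k, Measurable (fun x => ldec Ω (G k x) (G (k + 1) x) z) ∧
      ∀ s : ℝ, 0 ≤ s → s < 1 / 8 →
        Integrable (fun x => Real.exp (s * ldec Ω (G k x) (G (k + 1) x) z)) P ∧
        ∀ Φ : (Fin (k + 1) → NonemptyCompacts ℂ) → ℝ, Continuous Φ → (∃ C, ∀ y, |Φ y| ≤ C) →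
          ∫ x, Φ (fun j => G j x) * Real.exp (s * ldec Ω (G k x) (G (k + 1) x) z) ∂P =
            (∫ x, Φ (fun j => G j x) ∂P) / Real.cos (Real.pi * Real.sqrt (2 * s))

/-- The points `z i` lie in distinct holes of `K`. -/
def Dist {m : ℕ} (Ω K : Set ℂ) (z : Fin m → ℂ) : Prop :=
  ∀ i j, i ≠ j → hole Ω K (z i) ≠ hole Ω K (z j)

/-- **(I)** Iteration: given the first carpet `G 1`, the collections of the loops inside its holes
are independent nested CLE₄'s of the holes; every loop is the boundary of a hole of `G 1` or lies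
in a hole of `G 1`. -/
def Iter {Θ : Type} [MeasurableSpace Θ] (P : Measure Θ) (Ω : Set ℂ)
    (G : ℕ → Θ → NonemptyCompacts ℂ) (Γ : Θ → LoopColl) : Prop :=
  (∀ᵐ x ∂P, ∀ l, (Γ x).mult l ≠ 0 → ∃ U, IsHole Ω (G 1 x) U ∧
    ((∃ γ : PL, IsJordan γ (frontier U) ∧ SeparationQuotient.mk γ = l) ∨ LIn l U)) ∧
  ∀ M : Set ℂ → Measure LoopColl,
    (∀ U, IsOpen U → Bornology.IsBounded U → U.Nonempty → SimplyConnectedSpace U →
      IsNestedCLE4 U (M U)) →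
  ∀ (m : ℕ) (z : Fin m → ℂ) (F : Fin m → LoopColl → ℝ) (Φ : NonemptyCompacts ℂ → ℝ),
    (∀ i, z i ∈ Ω) → (∀ i, Continuous (F i)) → (∀ i, ∃ C, ∀ Λ, |F i Λ| ≤ C) →
    Continuous Φ → (∃ C, ∀ K, |Φ K| ≤ C) →
    (∀ i, AEStronglyMeasurable (fun x => F i (inside (Γ x) (hole Ω (G 1 x) (z i)))) P) ∧
    (∀ i, AEStronglyMeasurable (fun x => ∫ Λ, F i Λ ∂(M (hole Ω (G 1 x) (z i)))) P) ∧
    NullMeasurableSet {x | Dist Ω (G 1 x) z} P ∧
    ∫ x in {x | Dist Ω (G 1 x) z}, Φ (G 1 x) *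
        ∏ i, F i (inside (Γ x) (hole Ω (G 1 x) (z i))) ∂P =
      ∫ x in {x | Dist Ω (G 1 x) z}, Φ (G 1 x) *
        ∏ i, ∫ Λ, F i Λ ∂(M (hole Ω (G 1 x) (z i))) ∂P

/-! ## The goals -/

/-- (R) for all signed carpets. -/
def RGoal : Prop := ∀ Ω : Set ℂ, IsOpen Ω → Bornology.IsBounded Ω → Ω.Nonempty →
  SimplyConnectedSpace Ω → ∀ {Θ : Type} [MeasurableSpace Θ] (P : Measure Θ)
    [IsProbabilityMeasure P] (G : ℕ → Θ → NonemptyCompacts ℂ) (H : ℕ → Θ → (ℂ → ℝ) → ℝ),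
    IsSignedCarpets P Ω G H → Radii P Ω G

/-- (I) for all nested CLE₄'s. -/
def IGoal : Prop := ∀ Ω : Set ℂ, IsOpen Ω → Bornology.IsBounded Ω → Ω.Nonempty →
  SimplyConnectedSpace Ω → ∀ {Θ : Type} [MeasurableSpace Θ] (P : Measure Θ)
    (G : ℕ → Θ → NonemptyCompacts ℂ) (ξ : ℕ → ℕ → Θ → ℝ) (Γ : Θ → LoopColl),
    Nested P Ω G ξ Γ → Iter P Ω G Γ

/-! ## Blocks of (R) -/

/-- (R1a) **Green energy from the potential**: a positive smooth `u` on `U`, tending to `0` at the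
boundary, with `-Δu = φ ≥ 0` weakly, computes the Green energy of `φ`. -/
def R1a : Prop := ∀ (U : Set ℂ) (φ u : ℂ → ℝ), IsOpen U → Bornology.IsBounded U → IsTest U φ →
  (∀ x, 0 ≤ φ x) → (∀ x ∈ U, 0 < u x) →
  (∀ x ∈ U, ContDiffAt ℝ ((⊤ : ℕ∞) : WithTop ℕ∞) u x) →
  (∀ η : ℝ, 0 < η → IsCompact {x | x ∈ U ∧ η ≤ u x}) →
  (∀ w, IsTest U w → ∫ x, φ x * w x =
    ∫ x, (fderiv ℝ u x 1 * fderiv ℝ w x 1 + fderiv ℝ u x Complex.I * fderiv ℝ w x Complex.I)) →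
  greenEnergy U φ = ∫ x, φ x * u x

/-- (R1b) **Riemann map**: `ψ = (x - z) ψ̂` maps `U` onto the disc, `z` to `0`. -/
def R1b : Prop := ∀ (U : Set ℂ) (z : ℂ), IsOpen U → Bornology.IsBounded U →
  IsSimplyConnected U → z ∈ U → ∃ p : ℂ → ℂ, DifferentiableOn ℂ p U ∧ (∀ x ∈ U, p x ≠ 0) ∧
    (∀ x ∈ U, ‖x - z‖ * ‖p x‖ < 1) ∧
    (∀ r : ℝ, r < 1 → IsCompact {x | x ∈ U ∧ ‖x - z‖ * ‖p x‖ ≤ r}) ∧ 0 < crad U z ∧
    ‖p z‖ = (crad U z)⁻¹

/-- The bumps: nonnegative, mass one, supported in the closed ball, bounded by `C ε⁻²`. -/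
structure IsBmp (C : ℝ) (z : ℂ) (ε : ℝ) (φ : ℂ → ℝ) : Prop where
  smooth : ContDiff ℝ ((⊤ : ℕ∞) : WithTop ℕ∞) φ
  supp : tsupport φ ⊆ Metric.closedBall z ε
  nonneg : ∀ x, 0 ≤ φ x
  le : ∀ x, φ x ≤ C / ε ^ 2
  one : ∫ x, φ x = 1

/-- (R1) **Green energies of the bumps**: `V(U; φ_ε) = c_ε + (1/2π) log CR(z, U)`. -/
def R1 : Prop := ∃ (C : ℝ) (φ : ℂ → ℝ → ℂ → ℝ) (c : ℝ → ℝ), ∀ (z : ℂ) (ε : ℝ), 0 < ε →
  IsBmp C z ε (φ z ε) ∧ ∀ U : Set ℂ, IsOpen U → Bornology.IsBounded U → IsSimplyConnected U →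
    Metric.closedBall z ε ⊆ U →
    greenEnergy U (φ z ε) = c ε + (2 * Real.pi)⁻¹ * Real.log (crad U z)

/-- (R1d) only the component of the support counts -/
def R1d : Prop := ∀ (O : Set ℂ) (z : ℂ) (φ : ℂ → ℝ), IsOpen O → Bornology.IsBounded O → z ∈ O →
  IsTest (connectedComponentIn O z) φ →
  greenEnergy O φ = greenEnergy (connectedComponentIn O z) φ

/-- (R4) if the connected set `K` contains `z` and is not contained in `B(z, 4ε)`, bumps at `z` of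
radius `ε` have bounded energy off `K`. -/
def R4 : Prop := ∀ C : ℝ, ∃ C' : ℝ, ∀ (O K : Set ℂ) (z : ℂ) (ε : ℝ) (φ : ℂ → ℝ), IsOpen O →
  IsCompact K → IsConnected K → Disjoint O K → z ∈ K → 0 < ε →
  ¬ K ⊆ Metric.ball z (4 * ε) → IsBmp C z ε φ → greenEnergy O φ ≤ C'

/-- (R5) measurability of the conformal radii -/
def R5 : Prop := ∀ (Ω : Set ℂ) (z : ℂ), IsOpen Ω → Bornology.IsBounded Ω →
  LowerSemicontinuous (fun K : NonemptyCompacts ℂ => crad (hole Ω K z) z)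

/-- (R6) holes of connected carpets are simply connected -/
def R6 : Prop := ∀ (Ω : Set ℂ) (z : ℂ) (K : Set ℂ), IsOpen Ω → Bornology.IsBounded Ω →
  SimplyConnectedSpace Ω → IsCompact K → IsConnected K → (K = frontier Ω ∨ frontier Ω ⊆ K) →
  z ∈ Ω \ K → IsSimplyConnected (hole Ω K z) ∧ SimplyConnectedSpace (hole Ω K z)

/-- (R7) assembly of (R). -/
def R7 : Prop := R1 → R1d → R4 → R5 → R6 → RGoal

end Vale.Agent.P155.YD
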