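import Vale.Agent.P155.NT924.Fat
import Vale.Agent.P155.NT862.Sep

/-!
# P155, NT, OP1: localisation of a potential
-/

namespace Vale.Agent.P155.NT924

open Finset Relation SW HT T905 T802 G45 NT905 NT862

open Classical in
/-- **localisation**: the boundary beyond `box x M` contributes at most `c0` -/
theorem local_pot {c0 : ℝ} (hc0 : 0 < c0) : ∃ K : ℕ, 2 ≤ K ∧ ∀ (O O' : Set Pt), CPr O → O' ⊆ O →
    O'.Finite → ∀ g : Pt → ℝ, (∀ y, 0 ≤ g y ∧ g y ≤ 1) → ∀ U U' : Pt → ℝ, IsPot O' g U →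
    ∀ (x p : Pt) (n M : ℕ), p ∉ O → dn p x ≤ n → K * (n + 1) ≤ M →
    IsPot {y | y ∈ O' ∧ dn x y ≤ M} (fun y => if y ∈ O' then 0 else g y) U' →
    U x ≤ U' x + c0 := by
  obtain ⟨β, hβ, hSD, -⟩ := G1.decay
  obtain ⟨K, hK1, hK⟩ : ∃ K : ℕ, 1 ≤ K ∧ 2 * ((1 : ℝ) / K) ^ β < c0 := by
    have h1 : Filter.Tendsto (fun K : ℕ => (1 : ℝ) / K) Filter.atTop (nhds 0) :=
      tendsto_const_div_atTop_nhds_zero_nat 1
    have h2 := h1.rpow_const (p := β) (Or.inr hβ.le)
    rw [Real.zero_rpow hβ.ne'] at h2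
    have h3 := h2.const_mul 2
    rw [mul_zero] at h3
    obtain ⟨K, h4, h5⟩ := ((h3.eventually (gt_mem_nhds hc0)).and
      (Filter.eventually_ge_atTop 1)).exists
    exact ⟨K, h5, h4⟩
  refine ⟨K + 1, by omega, ?_⟩
  intro O O' hCP hOO hfin g hg U U' hU x p n M hp hn hKM hU'
  have hfin' : {y | y ∈ O' ∧ dn x y ≤ M}.Finite := hfin.subset fun y hy => hy.1
  have hU0 := hU.nonneg hfin (fun y => (hg y).1)
  have hU1 := hU.le_one hfin (fun y => (hg y).2)
  have hg' : ∀ y, 0 ≤ (fun y => if y ∈ O' then (0 : ℝ) else g y) y := by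
    intro y
    simp only
    split_ifs
    · exact le_rfl
    · exact (hg y).1
  have hU0' := hU'.nonneg hfin' hg'
  have hle : ∀ y, U' y ≤ U y := by
    apply comparison hfin' (u := U') (v := U)
    · intro y hy
      rw [hU.1 y hy.1, hU'.1 y hy]
    · intro y hy
      rw [hU'.2 y hy]
      show (if y ∈ O' then (0 : ℝ) else g y) ≤ U y
      split_ifs with h
      · exact hU0 y
      · rw [hU.2 y h]
  by_cases hxO : x ∈ O'
  swap
  · have h1 : x ∉ {y | y ∈ O' ∧ dn x y ≤ M} := fun h => hxO h.1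
    have h2 := hU'.2 x h1
    simp only at h2
    rw [if_neg hxO] at h2
    rw [hU.2 x hxO, h2]
    linarith
  obtain ⟨L, hL⟩ : ∃ L : ℕ, L = K * (n + 1) := ⟨_, rfl⟩
  have hLn : L + n ≤ M := by
    have : (K + 1) * (n + 1) = K * (n + 1) + n + 1 := by ring
    omega
  have hxL : dn p x ≤ L := by
    rw [hL]; nlinarith
  have hx' : x ∈ {y | y ∈ O' ∧ dn x y ≤ M} := ⟨hxO, by rw [G45.dn_self]; exact Nat.zero_le _⟩
  have hdec := decay_comp hSD (O := O) (O' := {y | y ∈ O' ∧ dn x y ≤ M}) hCP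
    (fun y hy => hOO hy.1) (h := fun y => U y - U' y) (fun y => ⟨by have := hle y; linarith, by
      have := hU0' y
      have := hU1 y
      linarith⟩)
    (fun y hy => by
      have e1 := hU.1 y hy.1
      have e2 := hU'.1 y hy
      rw [G45.lap_sub, e1, e2, sub_zero]) hp hx' hxL (by
      intro z _ hz y hzy hyO
      have h1 : dn p y ≤ L := by
        have e1 := H904.dn_tri p z y
        have e2 := dn_adj905 hzy
        omega
      have h2 : dn x y ≤ M := by
        have e1 := H904.dn_tri x p y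
        have e2 : dn x p = dn p x := G45.dn_comm x p
        omega
      have h3 : y ∉ O' := fun h => hyO ⟨h, h2⟩
      have h4 := hU'.2 y hyO
      simp only at h4
      rw [if_neg h3] at h4
      show U y - U' y = 0
      rw [hU.2 y h3, h4, sub_self])
  have h1 : ((dn p x : ℝ) + 1) / ((L : ℝ) + 1) ≤ 1 / K := by
    have hK0 : (0 : ℝ) < K := by exact_mod_cast hK1
    have e1 : (dn p x : ℝ) ≤ n := by exact_mod_cast hn
    have e2 : (L : ℝ) = K * (n + 1) := by rw [hL]; push_cast; ring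
    rw [div_le_div_iff₀ (by positivity) hK0, e2]
    nlinarith
  have h2 : (((dn p x : ℝ) + 1) / ((L : ℝ) + 1)) ^ β ≤ (1 / (K : ℝ)) ^ β :=
    Real.rpow_le_rpow (by positivity) h1 hβ.le
  have h3 : U x - U' x ≤ 2 * (((dn p x : ℝ) + 1) / ((L : ℝ) + 1)) ^ β := hdec
  linarith

/-- **localisation, for the label data** -/
theorem local_bdl {c0 : ℝ} (hc0 : 0 < c0) : ∃ K : ℕ, 2 ≤ K ∧ ∀ (T : Temp) (E O' : Set Pt),
    CPr (OE T E) → O' ⊆ OE T E → O'.Finite → ∀ (π : Pt → ZMod 2) (c : ZMod 2) (U U' : Pt → ℝ),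
    IsPot O' (bdl T E π c) U → ∀ (x : Pt) (n M : ℕ), (∃ p, p ∉ OE T E) →
    dF (OE T E) x ≤ n → K * (n + 1) ≤ M →
    IsPot {y | y ∈ O' ∧ dn x y ≤ M} (bdl T E π c) U' → U x ≤ U' x + c0 := by
  classical
  obtain ⟨K, hK, h⟩ := local_pot hc0
  refine ⟨K, hK, ?_⟩
  intro T E O' hCP hOO hfin π c U U' hU x n M hne hn hKM hU'
  obtain ⟨p, hp, hpx⟩ := G45.exists_dF hne x
  have hb : (fun y => if y ∈ O' then (0 : ℝ) else bdl T E π c y) = bdl T E π c := by
    funext y
    split_ifs with h1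
    · unfold bdl
      rw [if_neg]
      exact fun h2 => h2.1 (hOO h1)
    · rfl
  refine h (OE T E) O' hCP hOO hfin (bdl T E π c) (fun y => ⟨bdl_nonneg π c y, bdl_le_one π c y⟩)
    U U' hU x p n M hp ?_ hKM ?_
  · rw [G45.dn_comm, hpx]
    exact hn
  · rw [show (fun y => if y ∈ O' then (0 : ℝ) else bdl T E π c y) = bdl T E π c from hb]
    exact hU'

end Vale.Agent.P155.NT924
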