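import Vale.Agent.P155.NT802.Stage
import Vale.Agent.P155.NT34.Gap
import Vale.Agent.P155.NT.Path

/-!
# P155, NT: the lasso lemma for the global exploration (`NT802.LassoP`)
-/

namespace Vale.Agent.P155.NT924

open Vale.Agent.P155 T802 T905 J Finset NT Function NT802

/-- **LassoP** -/
theorem lassoP : NT802.LassoP := by
  intro T xS ω tm M hω W q r k r2 hr hx hr2 hk hsame f f' hc a a' ha ha' hn hn' _ _
  have hle : eK xS ω tm M q r k ≤ eK xS ω tm M q r (k + 1) := ent_mono (Nat.le_succ k)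
  obtain ⟨n0, hn0, hrun⟩ := W.pos hk
  obtain ⟨hsV, _, hi⟩ := W.valid _ hk
  obtain ⟨m0, hm0, hrun'⟩ := W.pos (lt_of_le_of_lt hle hk)
  rw [hsame] at hrun'
  have hpos : 0 < (comp ω (xS, (tm (eK xS ω tm M q r (k + 1))).1)).ncard := by omega
  have e0 : m0 = n0 := by
    obtain ⟨a1, a2⟩ := hrun 0 hpos
    obtain ⟨b1, b2⟩ := hrun' 0 hpos
    rw [add_zero] at a1 a2 b1 b2
    exact W.inj _ b1 _ a1 (by rw [a2, b2])
  subst e0
  have hne := W.ne_exc hω hr hx hk
  obtain ⟨t, ht⟩ : ∃ t, t = (tm (eK xS ω tm M q r (k + 1))).1 := ⟨_, rfl⟩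
  have hLe : LK xS ω tm M q r k = comp ω (xS, t) := by
    unfold LK
    rw [hsame, ht]
  rw [← ht] at hne hrun hi hsame hrun'
  rw [hLe]
  have hpt : ∀ i < (comp ω (xS, t)).ncard, pt' xS ω (tm (m0 + i)) = go ω (xS, t) i := by
    intro i hi
    rw [(hrun i hi).2]
    rfl
  -- the end of the excursion
  obtain ⟨xk, hxk⟩ : ∃ xk, xk = xK xS ω tm M q r (k + 1) := ⟨_, rfl⟩
  have hx1 : xk ≤ eK xS ω tm M q r (k + 1) := by rw [hxk]; exact exi_le_ent _
  have hx0 : eK xS ω tm M q r k ≤ xk := by rw [hxk]; exact ent_le_exi _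
  have hxout : pt' xS ω (tm xk) ∉ box q (4 * r) := by
    rw [hxk]
    exact exi_out (g := fun n => pt' xS ω (tm n)) (N := M) (q := q) (r0 := 2 * r)
      (R := 4 * r) (k := k) (lt_of_le_of_lt (exi_le_ent _) hk)
  rw [← hxk] at hn hn'
  have hβ : xk - m0 < (comp ω (xS, t)).ncard := by omega
  have hA : comp ω (xS, t) ∈ Loops ω := ⟨_, hne, rfl⟩
  have hP : NT34.Piece ω (comp ω (xS, t)) (go ω (xS, t)) 0 (xk - m0) := by
    refine ⟨fun i _ _ => NT.Go.go_adj hω hne i, ?_, fun i _ _ => NT.Go.go_mem ω _ i, ?_⟩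
    · intro i j _ h1 _ h2 he
      exact NT.Go.go_inj hω hne (by omega) (by omega) he
    · intro i h1 h2
      obtain ⟨j, rfl⟩ : ∃ j, i = j + 1 := ⟨i - 1, by omega⟩
      rw [Nat.add_sub_cancel]
      exact (NT.Go.go_partners hω hne j).symm
  have ho : go ω (xS, t) 0 ∉ box q (4 * r) := by
    rw [go0, not_box]
    have := dn_line (t := t) hx
    omega
  have ho' : go ω (xS, t) (xk - m0) ∉ box q (4 * r) := by
    rw [← hpt _ hβ, show m0 + (xk - m0) = xk by omega]
    exact hxout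
  have hE : ∀ i, 0 ≤ i → i ≤ xk - m0 → go ω (xS, t) i ∈ EK xS ω tm M q r (k + 1) := by
    intro i _ hi'
    right
    refine ⟨i, by omega, ?_⟩
    rw [← ht]
  have hb : ∀ i, eK xS ω tm M q r k - m0 ≤ i → i < xk - m0 → go ω (xS, t) i ∈ box q (4 * r) := by
    intro i h1 h2
    rw [← hpt _ (by omega)]
    exact in_box (g := fun n => pt' xS ω (tm n)) (N := M) (q := q) (r0 := 2 * r)
      (R := 4 * r) (k := k) (i := m0 + i) (by
        change eK xS ω tm M q r k ≤ m0 + i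
        omega) (by
        change m0 + i < xK xS ω tm M q r (k + 1)
        omega)
  refine NT34.hlasso_of hω hA hP ho ho' hE (r2 := r2) (by omega)
    (s := eK xS ω tm M q r k - m0 + 1) (t := xk - m0) (by omega) le_rfl
    (fun i h1 h2 => hb i (by omega) h2) f f' hc a a' ha ha' ?_ ?_
  · obtain ⟨n, h1, h2, h3⟩ := hn
    refine ⟨_, ⟨n - m0, by omega, by omega, rfl⟩, ?_⟩
    rw [← hpt _ (by omega), show m0 + (n - m0) = n by omega]
    exact h3
  · obtain ⟨n, h1, h2, h3⟩ := hn'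
    refine ⟨_, ⟨n - m0, by omega, by omega, rfl⟩, ?_⟩
    rw [← hpt _ (by omega), show m0 + (n - m0) = n by omega]
    exact h3

end Vale.Agent.P155.NT924
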