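import Vale.Agent.P155.NT924.Thin

/-!
# P155, NT, US (BM): a balanced face at mesoscopic distance from the wall
-/

namespace Vale.Agent.P155.NT924

open Finset Relation SW HT T905 T802 G45 NT NT905 NT733 NT862 Skel
open NT802 (Conn)

theorem ev_le {A B c a b : ℝ} (hA : 0 ≤ A) (hB : 0 ≤ B) (hc : 0 < c) (ha : 0 ≤ a) (hab : a < b) :
    ∀ᶠ R : ℝ in Filter.atTop, A * R ^ a + B ≤ c * R ^ b := by
  have t : Filter.Tendsto (fun R : ℝ => c * R ^ (b - a)) Filter.atTop Filter.atTop :=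
    (tendsto_rpow_atTop (by linarith)).const_mul_atTop hc
  filter_upwards [Filter.eventually_ge_atTop 1, t.eventually_ge_atTop (A + B)] with R h1 h2
  have hR0 : (0 : ℝ) < R := by linarith
  have h3 : (1 : ℝ) ≤ R ^ a := Real.one_le_rpow h1 ha
  calc A * R ^ a + B ≤ A * R ^ a + B * R ^ a := by nlinarith
    _ = (A + B) * R ^ a := by ring
    _ ≤ c * R ^ (b - a) * R ^ a := mul_le_mul_of_nonneg_right h2 (by linarith)
    _ = c * R ^ b := by rw [mul_assoc, ← Real.rpow_add hR0]; congr 2; ring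

/-- **(BM)** off an event of small probability: for every time `(t, i)` and every free point `z`
away from polygon, line and tip, with labels of the old faces off `box z (D+1)`, there is a
balanced face `x` on one of the rings `dn z x ∈ (s, 2 s]`, `s = ⌊σ R⌋`, with
`R^a1 ≤ dF (OE T E) x`. -/
theorem bm : ∃ K : ℕ, 4 ≤ K ∧ ∀ a1 p θ σ : ℝ, 0 < a1 → a1 < 1 / 512 → 0 < p → 0 < θ → 0 < σ →
    4 * σ < θ → 2 * σ ≤ 1 → ∃ C : ℝ, 0 < C ∧ ∃ R0 : ℕ, ∀ R : ℕ, R0 ≤ R → ∀ T : Temp, Fits T R →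
    ∃ Bad : Conf → Prop, Pr T.V Bad ≤ C * (R : ℝ) ^ (-p) ∧
    ∀ ω ∈ DD T.V, ¬ Bad ω → ∀ (xS t : ℤ) (i : ℕ), ω.1 (xS, t) ≠ ω.2 (xS, t) →
    ∀ E : Set Pt, E = Eti xS ω t i → CPr (OE T E) →
    ∀ (v₁ z : Pt) (D N : ℕ), v₁ = go ω (xS, t) (i + 1) →
    (∀ f ∉ T.faceSet, θ * R ≤ dn f z) → θ * R ≤ ((|z.1 - xS| : ℤ) : ℝ) → θ * R ≤ dn z v₁ →
    z ∉ SS T E → (∃ p, p ∉ OE T E ∧ dn z p ≤ D + 1) →
    ∀ π : Pt → ZMod 2, Lab T E v₁ z D π → ∀ O' : Set Pt, O' ⊆ OE T E → O'.Finite →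
    (∀ f ∈ OE T E, D + 1 < dn z f → dn z f ≤ N → f ∈ O') →
    ∀ U₀ U₁ : Pt → ℝ, IsPot O' (bdl T E π 0) U₀ → IsPot O' (bdl T E π 1) U₁ →
    K * (D + 1) ≤ ⌊σ * R⌋₊ → K * (2 * ⌊σ * R⌋₊ + 1) ≤ N →
    ∃ x, ⌊σ * R⌋₊ < dn z x ∧ dn z x ≤ 2 * ⌊σ * R⌋₊ ∧ x ∈ OE T E ∧ x ∈ O' ∧
      (∀ u ∈ corners x, u ∈ FB T E z (dn z x + 1)) ∧ 1 / 16 ≤ U₀ x ∧ 1 / 16 ≤ U₁ x ∧
      (R : ℝ) ^ a1 ≤ dF (OE T E) x := by
  obtain ⟨K, hK4, hdet⟩ := bm_det
  refine ⟨K, hK4, ?_⟩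
  intro a1 p θ σ ha1 ha1' hp hθ hσ hσθ hσ1
  obtain ⟨C, hC, R1, hR1⟩ := thin_prob hp hθ hσ hσθ.le hσ1
  have hev : ∀ᶠ R : ℝ in Filter.atTop, 1 ≤ R ∧ 2 ≤ σ * R ∧
      (K : ℝ) * (R ^ a1 + 1) + 2 ≤ (σ * R) ^ (1 / 512 : ℝ) ∧
      (K : ℝ) * (R ^ a1 + 1) + 2 ≤ R ^ (1 - 1 / 1024 : ℝ) ∧
      (2 * R ^ (1 - 1 / 1024 : ℝ) + 3) ≤ σ / 2 * R ∧
      (2 * R ^ (1 - 1 / 1024 : ℝ) + 2) ≤ (θ - 2 * σ) * R := by
    have t1 : Filter.Tendsto (fun R : ℝ => σ * R) Filter.atTop Filter.atTop :=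
      Filter.tendsto_id.const_mul_atTop hσ
    have hK0 : (0 : ℝ) ≤ K := Nat.cast_nonneg _
    filter_upwards [Filter.eventually_ge_atTop 1, t1.eventually_ge_atTop 2,
      ev_le (A := K) (B := K + 2) (c := σ ^ (1 / 512 : ℝ)) (b := 1 / 512) hK0 (by linarith)
        (by positivity) ha1.le ha1',
      ev_le (A := K) (B := K + 2) (c := 1) (b := 1 - 1 / 1024) hK0 (by linarith)
        one_pos ha1.le (by linarith),
      ev_le (A := 2) (B := 3) (c := σ / 2) (a := 1 - 1 / 1024) (b := 1) (by norm_num) (by norm_num)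
        (by linarith) (by norm_num) (by norm_num),
      ev_le (A := 2) (B := 2) (c := θ - 2 * σ) (a := 1 - 1 / 1024) (b := 1) (by norm_num)
        (by norm_num) (by linarith) (by norm_num) (by norm_num)] with R h1 h2 h3 h4 h5 h6
    rw [Real.rpow_one] at h5 h6
    refine ⟨h1, h2, ?_, by linarith, h5, h6⟩
    rw [Real.mul_rpow hσ.le (by linarith)]
    linarith
  obtain ⟨R2, hR2⟩ := Filter.eventually_atTop.1 hev
  refine ⟨C, hC, max R1 (⌈R2⌉₊ + 1), ?_⟩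
  intro R hR T hfit
  have hRR : R2 ≤ (R : ℝ) := (Nat.le_ceil R2).trans (by
    exact_mod_cast (by omega : ⌈R2⌉₊ ≤ R))
  obtain ⟨e1, e2, e3, e4, e5, e6⟩ := hR2 R hRR
  obtain ⟨ρ, hρ⟩ : ∃ ρ, ρ = ⌈(R : ℝ) ^ (1 - 1 / 1024 : ℝ)⌉₊ := ⟨_, rfl⟩
  obtain ⟨m, hm⟩ : ∃ m, m = ⌊(R : ℝ) ^ a1⌋₊ := ⟨_, rfl⟩
  obtain ⟨s, hs⟩ : ∃ s, s = ⌊σ * R⌋₊ := ⟨_, rfl⟩
  have hRpos : (0 : ℝ) < R := by linarith
  have hm1 : (m : ℝ) ≤ (R : ℝ) ^ a1 := by rw [hm]; exact Nat.floor_le (by positivity)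
  have hm2 : (R : ℝ) ^ a1 < m + 1 := by rw [hm]; exact Nat.lt_floor_add_one _
  have s1 : σ * R < s + 1 := by rw [hs]; exact Nat.lt_floor_add_one _
  have s2 : (s : ℝ) ≤ σ * R := by rw [hs]; exact Nat.floor_le (by positivity)
  have hρ1 : (R : ℝ) ^ (1 - 1 / 1024 : ℝ) ≤ ρ := by rw [hρ]; exact Nat.le_ceil _
  have hρ2 : (ρ : ℝ) < (R : ℝ) ^ (1 - 1 / 1024 : ℝ) + 1 := by
    rw [hρ]; exact Nat.ceil_lt_add_one (by positivity)
  have hp1 : (1 : ℝ) ≤ (R : ℝ) ^ (1 - 1 / 1024 : ℝ) := Real.one_le_rpow e1 (by norm_num)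
  have hk0 : ((K * (m + 1) + 2 : ℕ) : ℝ) ≤ (K : ℝ) * ((R : ℝ) ^ a1 + 1) + 2 := by
    push_cast
    have : (K : ℝ) * (m + 1) ≤ K * ((R : ℝ) ^ a1 + 1) :=
      mul_le_mul_of_nonneg_left (by linarith) (Nat.cast_nonneg _)
    linarith
  have hk : ((K * (m + 1) + 2 : ℕ) : ℝ) ≤ ((2 * ⌊σ * R⌋₊ : ℕ) : ℝ) ^ (1 / 512 : ℝ) := by
    rw [← hs]
    refine (hk0.trans e3).trans (Real.rpow_le_rpow (by positivity) ?_ (by norm_num))
    push_cast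
    linarith
  have hkρ : K * (m + 1) + 2 ≤ ρ := by
    have : ((K * (m + 1) + 2 : ℕ) : ℝ) ≤ ρ := (hk0.trans e4).trans hρ1
    exact_mod_cast this
  refine ⟨_, hR1 R (le_trans (le_max_left _ _) hR) T hfit ρ (K * (m + 1) + 2) hρ hk, ?_⟩
  intro ω hω hbad xS t i hne E hE hCP v₁ z D N hv₁ hpoly hline htip hzS hp π hπ O' hOO hfin hbig
    U₀ U₁ hU₀ hU₁ hKD hKN
  rw [← hs] at hKD hKN hbad ⊢
  have hD4 : 4 * (D + 1) ≤ s := (Nat.mul_le_mul_right _ hK4).trans hKD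
  -- numbers
  have n1 : ρ + 2 + D < s := by
    have h1 : (4 * (D + 1) : ℝ) ≤ s := by exact_mod_cast hD4
    have h2 : ((ρ + 2 + D : ℕ) : ℝ) < s := by
      push_cast
      linarith
    exact_mod_cast h2
  have n2 : 2 * s + ρ + 1 < dn z v₁ := by
    have h2 : ((2 * s + ρ + 1 : ℕ) : ℝ) < dn z v₁ := by
      push_cast
      nlinarith
    exact_mod_cast h2
  have n3 : ((2 * s + ρ + 1 : ℕ) : ℤ) < |z.1 - xS| := by
    have h2 : (((2 * s + ρ + 1 : ℕ) : ℤ) : ℝ) < ((|z.1 - xS| : ℤ) : ℝ) := by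
      push_cast at hline ⊢
      nlinarith
    exact_mod_cast h2
  have n4 : ∀ f ∉ T.faceSet, 2 * s + (K * (m + 1) + 2) < dn f z := by
    intro f hf
    have h1 := hpoly f hf
    have h2 : ((2 * s + (K * (m + 1) + 2) : ℕ) : ℝ) < dn f z := by
      have h3 : ((K * (m + 1) + 2 : ℕ) : ℝ) ≤ (R : ℝ) ^ (1 - 1 / 1024 : ℝ) := hk0.trans e4
      push_cast at h3 ⊢
      nlinarith
    exact_mod_cast h2
  have htwo : ∀ x, s < dn z x → dn z x ≤ 2 * s → ∀ q q', q ∈ SS T E → q' ∈ SS T E →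
      dn x q ≤ K * (m + 1) + 2 → dn x q' ≤ K * (m + 1) + 2 →
      ¬ ReflTransGen (LS T E x ρ) q q' → TwoStr T.V (box x ρ) ω x (K * (m + 1) + 2) := by
    intro x hx1 hx2 q q' hq hq' hd hd' hn
    rw [hE] at hq hq' hn
    refine twoStr_of hω hne ?_ ?_ hkρ ?_ hq hq' hd hd' hn
    · -- the line
      have h1 : |z.1 - xS| ≤ |z.1 - x.1| + |x.1 - xS| := by
        have := abs_add_le (z.1 - x.1) (x.1 - xS)
        simpa using this
      have h2 : |z.1 - x.1| ≤ 2 * s := by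
        have := (H904.dn_le_iff (u := z) (v := x) (n := 2 * s)).1 hx2
        push_cast at this
        exact this.1
      push_cast at n3
      linarith
    · rw [← hv₁]
      have := H904.dn_tri z x v₁
      omega
    · obtain ⟨f, hf, hfd⟩ := G45.exists_dF (G45.exists_notMem T.faceSet_finite) x
      rw [← hfd]
      have h1 := n4 f hf
      have h2 := G45.dn_tri f x z
      rw [G45.dn_comm x z, G45.dn_comm f x] at h2
      omega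
  -- the deterministic part
  rcases hdet (T := T) (E := E) hCP (V := T.V) (ω := ω) (v₁ := v₁) (z := z) (D := D) (s := s)
    (m := m) (ρ := ρ) (N := N) htwo hzS hp hπ (fun f hf => hOO hf) hfin hbig hU₀ hU₁ hKD hKN hkρ n1
    n2 with ⟨x, x1, x2, x3, x4, x5, x6, x7⟩ | hthin
  · refine ⟨x, x1, x2, x3, hbig x x3 (by omega) ?_, x4, x5, x6, ?_⟩
    · have : 4 * (2 * s + 1) ≤ N := (Nat.mul_le_mul_right _ hK4).trans hKN
      omega
    · obtain ⟨f, hf, hfd⟩ := G45.exists_dF (O := OE T E) (by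
        obtain ⟨p', hp', _⟩ := hp
        exact ⟨p', hp'⟩) x
      have h1 := x7 f hf
      rw [G45.dn_comm] at h1
      have h2 : (m : ℝ) + 1 ≤ dF (OE T E) x := by
        rw [← hfd]
        exact_mod_cast h1
      linarith
  · exact absurd ⟨z, hpoly, hthin⟩ hbad
end Vale.Agent.P155.NT924
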