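import Vale.Agent.P155.NT924.BM
import Vale.Agent.P155.NT862.Pick

/-!
# P155, NT, US (BM): the balanced face at the beginning of an excursion
-/

namespace Vale.Agent.P155.NT924

open Finset Relation SW HT T905 T802 G45 NT NT905 NT733 NT862 Skel NT802 NT276 NT814.US

/-- **(BM) in the variables of `OPX`** -/
theorem bm_bal : ∃ K : ℕ, 4 ≤ K ∧ ∀ a1 p c δ θ σ : ℝ, 0 < a1 → a1 < 1 / 512 → 0 < p → 0 < c →
    0 < δ → 0 < θ → 0 < σ → 8 * σ ≤ c → 8 * σ ≤ δ → 8 * σ ≤ θ → 2 * σ ≤ 1 →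
    ∃ C : ℝ, 0 < C ∧ ∃ R0 : ℕ, ∀ R : ℕ, R0 ≤ R → ∀ T : Temp, Fits T R →
    ∃ Bad : Conf → Prop, Pr T.V Bad ≤ C * (R : ℝ) ^ (-p) ∧
    ∀ ω ∈ DD T.V, ¬ Bad ω → ∀ (xS : ℤ) (q : Pt) (r r1 r2 k : ℕ), c * R ≤ r → r ≤ R → 1 ≤ r →
    (16 * r : ℤ) ≤ |q.1 - xS| → (r2 : ℝ) + δ * R ≤ r1 → r1 + 3 ≤ 2 * r →
    ∀ z : Pt, z ∈ box q r2 → (∀ f ∉ T.faceSet, θ * R ≤ dn f z) →
    z ∉ SS T (EN T xS ω q r k) → ∀ D N : ℕ, (∃ w ∈ SS T (EN T xS ω q r k), dn z w ≤ D) →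
    Conn {x | x ∉ SS T (EN T xS ω q r k)} (v1N T xS q r k ω) z →
    eN T xS ω q r k + 1 < xN T xS ω q r k →
    K * (D + 1) ≤ ⌊σ * R⌋₊ → K * (2 * ⌊σ * R⌋₊ + 1) ≤ N →
    ∃ y, BalF T (EN T xS ω q r k) (v1N T xS q r k ω) z D N ⌊σ * R⌋₊ ⌈(R : ℝ) ^ a1⌉₊ y := by
  obtain ⟨K, hK4, hbm⟩ := bm
  refine ⟨K, hK4, ?_⟩
  intro a1 p c δ θ σ ha1 ha1' hp hc hδ hθ hσ hσc hσδ hσθ hσ1
  obtain ⟨θ', hθ'⟩ : ∃ θ' : ℝ, θ' = 8 * σ := ⟨_, rfl⟩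
  obtain ⟨C, hC, R0, hR0⟩ := hbm a1 p θ' σ ha1 ha1' hp (by linarith) hσ (by linarith) hσ1
  refine ⟨C, hC, R0, ?_⟩
  intro R hR T hfit
  obtain ⟨Bad, hBad, hgood⟩ := hR0 R hR T hfit
  refine ⟨Bad, hBad, ?_⟩
  intro ω hω hbad xS q r r1 r2 k hcr hrR hr1 hx hr2 hr1' z hz hpoly hzS D N hw hconn h1 hKD hKN
  have hR00 : (0 : ℝ) ≤ R := Nat.cast_nonneg _
  have W := walk hω xS
  have hxM : xN T xS ω q r k ≤ Tm.M T.V xS ω := exi_le _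
  have hk : eN T xS ω q r k < Tm.M T.V xS ω := by omega
  have hv1 : v1N T xS q r k ω = go ω (xS, (Tm.tm T.V xS ω (eN T xS ω q r k)).1)
      ((Tm.tm T.V xS ω (eN T xS ω q r k)).2 + 1) := by
    unfold v1N
    rw [if_pos hk]
  have hne := W.ne_exc hω hr1 hx (k := k) hk
  have hzq : dn q z ≤ r2 := J.dn_le_iff.2 hz
  have hr21 : r2 ≤ r1 := by
    have : (r2 : ℝ) ≤ r1 := by nlinarith
    exact_mod_cast this
  -- the tip is far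
  have htip : θ' * R ≤ dn z (v1N T xS q r k ω) := by
    have e1 := NT34.ent_dn hω hr1 hx (k := k) hk
    have e2 := adj hω hr1 hx (n := eN T xS ω q r k) le_rfl h1
    rw [v1N_eq hω hr1 hx h1] at e2
    have e3 := dn_adj905 e2
    have e4 := H904.dn_tri q (v1N T xS q r k ω) (gN T xS ω (eN T xS ω q r k))
    rw [G45.dn_comm (v1N T xS q r k ω)] at e4
    have e5 := H904.dn_tri q z (v1N T xS q r k ω)
    have e6 : r1 + 2 ≤ r2 + dn z (v1N T xS q r k ω) := by omega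
    have e7 : (r1 : ℝ) + 2 ≤ r2 + dn z (v1N T xS q r k ω) := by exact_mod_cast e6
    nlinarith
  -- the line is far
  have hline : θ' * R ≤ ((|z.1 - xS| : ℤ) : ℝ) := by
    have e1 : |q.1 - xS| ≤ |q.1 - z.1| + |z.1 - xS| := by
      have := abs_add_le (q.1 - z.1) (z.1 - xS)
      simpa using this
    have e2 : |q.1 - z.1| ≤ r2 := (H904.dn_le_iff.1 hzq).1
    have e3 : (r : ℤ) ≤ |z.1 - xS| := by omega
    have e4 : (r : ℝ) ≤ ((|z.1 - xS| : ℤ) : ℝ) := by exact_mod_cast e3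
    nlinarith
  have hw' := hw
  obtain ⟨w, hwS, hwd⟩ := hw'
  have hlab := labOf_spec (lab_ex hω hr1 hx h1 hw hconn)
  obtain ⟨x, x1, x2, x3, x4, x5, x6, x7, x8⟩ := hgood ω hω hbad xS
    (Tm.tm T.V xS ω (eN T xS ω q r k)).1 (Tm.tm T.V xS ω (eN T xS ω q r k)).2 hne
    (EN T xS ω q r k) rfl (cp_Eti hω) (v1N T xS q r k ω) z D N hv1
    (fun f hf => le_trans (by nlinarith) (hpoly f hf)) hline htip hzS
    ⟨w, fun h => corner_free h (by simp [corners]) hwS, by omega⟩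
    (labOf T (EN T xS ω q r k) (v1N T xS q r k ω) z D) hlab
    (OD T (EN T xS ω q r k) z D N) (fun f hf => hf.1) (OD_finite _ _ _ _ _)
    (fun f hf a b => ⟨hf, a, b⟩) _ _ (UL_spec T (EN T xS ω q r k) (v1N T xS q r k ω) z D N 0)
    (UL_spec T (EN T xS ω q r k) (v1N T xS q r k ω) z D N 1) hKD hKN
  exact ⟨x, x1, x2, x4, x6, x7, Nat.ceil_le.2 x8⟩

end Vale.Agent.P155.NT924
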