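import Vale.Agent.P155.NT814.US.Strand
import Vale.Agent.P155.NT905.LayH

/-!
# P155, NT: an excursion has a first step
-/

namespace Vale.Agent.P155.NT924

open Finset Vale.Agent.P155 T802 T905 J NT NT733 Function Skel NT802 NT276 NT814.US NT905

variable {T : Temp} {xS : ℤ} {ω : Conf} {q : Pt} {r k : ℕ}

/-- the excursion does not end at its first step -/
theorem enter_lt (hω : ω ∈ DD T.V) (hr : 1 ≤ r) (hx : (16 * r : ℤ) ≤ |q.1 - xS|)
    (hk : eN T xS ω q r k < Tm.M T.V xS ω) : eN T xS ω q r k + 1 < xN T xS ω q r k := by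
  have W := walk hω xS
  obtain ⟨n0, hn0, hrun⟩ := W.pos hk
  obtain ⟨hsV, _, hi⟩ := W.valid _ hk
  have hne : ω.1 (xS, (Tm.tm T.V xS ω (eN T xS ω q r k)).1) ≠
      ω.2 (xS, (Tm.tm T.V xS ω (eN T xS ω q r k)).1) := W.ne_exc hω hr hx (k := k) hk
  have hin : gN T xS ω (eN T xS ω q r k) ∈ box q (2 * r) :=
    ent_in (g := fun n => pt' xS ω (Tm.tm T.V xS ω n)) hk
  rw [← J.dn_le_iff] at hin
  have hlt : eN T xS ω q r k < xN T xS ω q r k :=
    ent_lt_exi (g := fun n => pt' xS ω (Tm.tm T.V xS ω n)) (by omega) hk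
  set n := eN T xS ω q r k with hn
  set t := (Tm.tm T.V xS ω n).1 with ht
  set i := (Tm.tm T.V xS ω n).2 with hi'
  have hgo : ∀ j < (comp ω (xS, t)).ncard, gN T xS ω (n0 + j) = go ω (xS, t) j := by
    intro j hj
    unfold gN
    rw [(hrun j hj).2]
    rfl
  have hgn : gN T xS ω n = go ω (xS, t) i := by
    rw [hn0]; exact hgo i hi
  have hadj := go_adj' hω hsV (i := i) hi
  rw [← hgn] at hadj
  have hd1 : dn (gN T xS ω n) (go ω (xS, t) (i + 1)) ≤ 1 := dn_adj905 hadj
  have hi1 : i + 1 < (comp ω (xS, t)).ncard := by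
    by_contra hc
    have he : i + 1 = (comp ω (xS, t)).ncard := by omega
    have h1 : go ω (xS, t) (i + 1) = (xS, t) := by
      have h2 : go ω (xS, t) (0 + (comp ω (xS, t)).ncard) = go ω (xS, t) 0 :=
        Go.go_add_len hω hne 0
      rw [zero_add] at h2
      rw [he, h2]
      exact go0 _ _
    rw [h1] at hd1
    have h3 := dn_line (t := t) hx
    have h4 := H904.dn_tri q (gN T xS ω n) (xS, t)
    omega
  have hM : n + 1 < Tm.M T.V xS ω := by
    have := (hrun (i + 1) hi1).1
    omega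
  have hg1 : gN T xS ω (n + 1) = go ω (xS, t) (i + 1) := by
    rw [hn0, add_assoc]; exact hgo (i + 1) hi1
  have hbox : gN T xS ω (n + 1) ∈ box q (4 * r) := by
    rw [← J.dn_le_iff, hg1]
    have h4 := H904.dn_tri q (gN T xS ω n) (go ω (xS, t) (i + 1))
    omega
  rcases Nat.lt_or_ge (n + 1) (xN T xS ω q r k) with h | h
  · exact h
  · exfalso
    have he : xN T xS ω q r k = n + 1 := by omega
    have h5 := exi_out (g := fun n => pt' xS ω (Tm.tm T.V xS ω n)) (N := Tm.M T.V xS ω) (q := q)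
      (r0 := 2 * r) (R := 4 * r) (k := k) (by
        change xN T xS ω q r k < _
        omega)
    apply h5
    change gN T xS ω (xN T xS ω q r k) ∈ _
    rw [he]
    exact hbox

end Vale.Agent.P155.NT924
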