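import Vale.Agent.P155.NT905.LayH
import Vale.Agent.P155.N924.Near

/-!
# P155, NT, US: the balanced face at the outermost separating set is fat

(D2) `reach`: if a function which is harmonic in `O'` and `≥ 1/16` at `x` vanishes off `O'` except
on a set of faces `A`, and `x` is close to a face off `O`, then a face of `A` is reachable from
`x` inside a comparable box.

(D1) `min_false`: minimality of the component of the tip.
-/

namespace Vale.Agent.P155.NT924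

open Finset Relation SW HT T905 T802 G45 NT905

open Classical in
/-- a harmonic function with zero boundary values in the component of `x` in the box decays -/
theorem decay_comp {β : ℝ} (hSD : SupDecay 2 β) {O O' : Set Pt} (hCP : CPr O) (hOO : O' ⊆ O)
    {h : Pt → ℝ} (h01 : ∀ x, 0 ≤ h x ∧ h x ≤ 1) (harm : ∀ x ∈ O', lap h x = 0) {p x : Pt}
    (hp : p ∉ O) {L : ℕ} (hx : x ∈ O') (hxL : dn p x ≤ L)
    (hb : ∀ z ∈ Kc O' p L x, dn p z < L → ∀ y, Adj z y → y ∉ O' → h y = 0) :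
    h x ≤ 2 * (((dn p x : ℝ) + 1) / ((L : ℝ) + 1)) ^ β := by
  have hsub := Kc_sub hx hxL
  have hxK : x ∈ Kc O' p L x := Relation.ReflTransGen.refl
  have hh := hSD (Kc O' p L x) p L 1 (fun z => if z ∈ Kc O' p L x then h z else 0) ?_ ?_ ?_ ?_ x hxL
  · rw [if_pos hxK, mul_one] at hh
    exact (le_abs_self _).trans hh
  · intro r _
    obtain ⟨q, hq, hr⟩ := hCP p hp r
    exact ⟨q, fun h => hq (hOO (hsub q h).1), hr⟩
  · intro z hz
    exact if_neg hz
  · intro z hz hzR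
    have key : ∀ y, Adj z y → (if y ∈ Kc O' p L x then h y else 0) = h y := by
      intro y hy
      by_cases hyO : y ∈ O'
      · have hyR : dn p y ≤ L := by
          have h1 := H904.dn_tri p z y
          have h2 := dn_adj905 hy
          omega
        have : y ∈ Kc O' p L x := Relation.ReflTransGen.tail hz ⟨hy, hyO, hyR⟩
        rw [if_pos this]
      · rw [hb z hz hzR y hy hyO]
        split_ifs <;> rfl
    obtain ⟨a1, a2, a3, a4⟩ := adj4 z
    have h0 := harm z (hsub z hz).1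
    unfold lap at h0 ⊢
    simp only at h0 ⊢
    rw [key _ a1, key _ a2, key _ a3, key _ a4, if_pos hz]
    exact h0
  · intro z _
    split_ifs
    · obtain ⟨h1, h2⟩ := h01 z
      rw [abs_le]
      constructor <;> linarith
    · simp

/-- **(D2)** there is a constant `K`: if `h x ≥ c0` and `x` is at distance `≤ m` of a face off `O`,
then a face at which `h ≠ 0` off `O'` is reachable from `x` inside `box x (K (m + 1))`. -/
theorem reach {c0 : ℝ} (hc0 : 0 < c0) : ∃ K : ℕ, 1 ≤ K ∧ ∀ (O O' : Set Pt), CPr O → O' ⊆ O →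
    ∀ h : Pt → ℝ, (∀ x, 0 ≤ h x ∧ h x ≤ 1) → (∀ x ∈ O', lap h x = 0) →
    ∀ (p x : Pt) (m : ℕ), p ∉ O → dn p x ≤ m → x ∈ O' → c0 ≤ h x →
    ∃ z, ReflTransGen (fun a b => Adj a b ∧ b ∈ O' ∧ dn x b ≤ K * (m + 1)) x z ∧
      ∃ y, Adj z y ∧ y ∉ O' ∧ h y ≠ 0 := by
  obtain ⟨β, hβ, hSD, -⟩ := G1.decay
  -- the constant
  obtain ⟨K, hK1, hK⟩ : ∃ K : ℕ, 1 ≤ K ∧ 2 * ((1 : ℝ) / K) ^ β < c0 := by
    have h1 : Filter.Tendsto (fun K : ℕ => (1 : ℝ) / K) Filter.atTop (nhds 0) :=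
      tendsto_const_div_atTop_nhds_zero_nat 1
    have h2 := h1.rpow_const (p := β) (Or.inr hβ.le)
    rw [Real.zero_rpow hβ.ne'] at h2
    have h3 := h2.const_mul 2
    rw [mul_zero] at h3
    obtain ⟨K, h4, h5⟩ := ((h3.eventually (gt_mem_nhds hc0)).and
      (Filter.eventually_ge_atTop 1)).exists
    exact ⟨K, h5, h4⟩
  refine ⟨K + 1, by omega, ?_⟩
  intro O O' hCP hOO h h01 harm p x m hp hm hx hge
  by_contra hcon
  push Not at hcon
  obtain ⟨L, hL⟩ : ∃ L : ℕ, L = K * (m + 1) := ⟨_, rfl⟩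
  have hxL : dn p x ≤ L := by
    rw [hL]; nlinarith
  have key : ∀ z ∈ Kc O' p L x,
      ReflTransGen (fun a b => Adj a b ∧ b ∈ O' ∧ dn x b ≤ (K + 1) * (m + 1)) x z := by
    intro z hz
    refine ReflTransGen.mono ?_ _ _ hz
    rintro a b ⟨h1, h2, h3⟩
    refine ⟨h1, h2, ?_⟩
    have h4 := H904.dn_tri x p b
    have h5 : dn x p = dn p x := G45.dn_comm x p
    have h6 : (K + 1) * (m + 1) = K * (m + 1) + (m + 1) := by ring
    omega
  have hle := decay_comp hSD hCP hOO h01 harm hp hx hxL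
    (fun z hz _ y hy hyO => hcon z (key z hz) y hy hyO)
  have h1 : ((dn p x : ℝ) + 1) / ((L : ℝ) + 1) ≤ 1 / K := by
    have hK0 : (0 : ℝ) < K := by exact_mod_cast hK1
    have e1 : (dn p x : ℝ) ≤ m := by exact_mod_cast hm
    have e2 : (L : ℝ) = K * (m + 1) := by rw [hL]; push_cast; ring
    rw [div_le_div_iff₀ (by positivity) hK0, e2]
    nlinarith
  have h2 : (((dn p x : ℝ) + 1) / ((L : ℝ) + 1)) ^ β ≤ (1 / (K : ℝ)) ^ β :=
    Real.rpow_le_rpow (by positivity) h1 hβ.le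
  linarith

/-! ### minimality -/

/-- the component of `v1` in the free vertices off `κ` -/
def TipC (Fr : Set Pt) (v1 : Pt) (κ : Set Pt) : Set Pt :=
  {u | v1 ∉ κ ∧ ReflTransGen (fun a b => Adj a b ∧ b ∈ Fr ∧ b ∉ κ) v1 u}

/-- `κ` is connected -/
def ConnS (κ : Set Pt) : Prop := ∀ u ∈ κ, ∀ v ∈ κ, ReflTransGen (fun a b => Adj a b ∧ b ∈ κ) u v

theorem tipC_off {Fr : Set Pt} {v1 : Pt} {κ : Set Pt} {u : Pt} (hu : u ∈ TipC Fr v1 κ) : u ∉ κ := by
  obtain ⟨h1, h2⟩ := hu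
  rcases ReflTransGen.cases_tail h2 with h | ⟨w, _, _, _, h3⟩
  · rw [h]; exact h1
  · exact h3

theorem tipC_fr {Fr : Set Pt} {v1 : Pt} {κ : Set Pt} (hv : v1 ∈ Fr) {u : Pt}
    (hu : u ∈ TipC Fr v1 κ) : u ∈ Fr := by
  obtain ⟨h1, h2⟩ := hu
  rcases ReflTransGen.cases_tail h2 with h | ⟨w, _, _, h3, _⟩
  · rw [h]; exact hv
  · exact h3

/-- a connected set which is disjoint from `κs` and meets the tip component of `κs` is contained in
it -/
theorem conn_tip {Fr : Set Pt} {v1 : Pt} {κ0 κs : Set Pt} (hF : κ0 ⊆ Fr) (hc : ConnS κ0)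
    (hd : ∀ u ∈ κ0, u ∉ κs) {u z : Pt} (hu : u ∈ κ0) (hz : z ∈ κ0) (h : u ∈ TipC Fr v1 κs) :
    z ∈ TipC Fr v1 κs := by
  refine ⟨h.1, h.2.trans ?_⟩
  refine ReflTransGen.mono ?_ _ _ (hc u hu z hz)
  rintro a b ⟨h1, h2⟩
  exact ⟨h1, hF h2, hd b h2⟩

/-- **(D1)** `κ0` a connected set of free vertices, `κs` a set disjoint from it which separates a
point of `κ0` from `v1`; then the tip component of `κs` is strictly smaller, and `κs` separates
from `v1` everything that `κ0` separates. -/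
theorem tip_lt {Fr : Set Pt} {v1 : Pt} {κ0 κs : Set Pt} (hF : κ0 ⊆ Fr) (hc : ConnS κ0)
    (hd : ∀ u ∈ κ0, u ∉ κs) {z : Pt} (hz : z ∈ κ0) (hzs : z ∉ TipC Fr v1 κs)
    (hlink : ReflTransGen (fun a b => Adj a b ∧ b ∈ Fr) v1 z) :
    TipC Fr v1 κs ⊆ TipC Fr v1 κ0 ∧ ∃ w ∈ TipC Fr v1 κ0, w ∉ TipC Fr v1 κs := by
  have h0 : ∀ u ∈ κ0, u ∉ TipC Fr v1 κs := fun u hu h => hzs (conn_tip hF hc hd hu hz h)
  have hsub : TipC Fr v1 κs ⊆ TipC Fr v1 κ0 := by
    rintro u hu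
    have hv : v1 ∈ TipC Fr v1 κs := ⟨hu.1, ReflTransGen.refl⟩
    refine ⟨fun h => h0 _ h hv, ?_⟩
    obtain ⟨h1, h2⟩ := hu
    induction h2 with
    | refl => exact ReflTransGen.refl
    | tail h3 h4 ih =>
      exact ih.tail ⟨h4.1, h4.2.1, fun h5 => h0 _ h5 ⟨h1, h3.tail h4⟩⟩
  refine ⟨hsub, ?_⟩
  -- the first point of a path to `z` off the tip component of `κs`
  by_contra hcon
  push Not at hcon
  have hv0 : v1 ∉ κ0 := by
    intro h
    by_cases hvs : v1 ∈ κs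
    · exact hd _ h hvs
    · exact h0 _ h ⟨hvs, ReflTransGen.refl⟩
  have hall : ∀ u, ReflTransGen (fun a b => Adj a b ∧ b ∈ Fr) v1 u → u ∈ TipC Fr v1 κs := by
    intro u hu
    induction hu with
    | refl => exact hcon _ ⟨hv0, ReflTransGen.refl⟩
    | tail h3 h4 ih =>
      rename_i b c
      by_cases hc0 : c ∈ κ0
      · exact absurd ⟨ih.1, ih.2.tail ⟨h4.1, h4.2, hd c hc0⟩⟩ (h0 c hc0)
      · have hb0 := hsub ih
        exact hcon c ⟨hv0, hb0.2.tail ⟨h4.1, h4.2, hc0⟩⟩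
  exact hzs (hall z hlink)

end Vale.Agent.P155.NT924
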