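import Vale.Agent.P155.NT924.Fat
import Vale.Agent.P155.NT862.Sep
import Vale.Agent.P155.NT802.Sep
import Vale.Agent.P155.NT34.Gap

/-!
# P155, NT, US: the balanced face at the outermost separating set is fat

`κ₀` = a set with the smallest component of the tip `v₁` among the small connected free sets next
to the wall which separate `e` from `v₁`; `z ∈ κ₀`. Then a face `x` from which the two labels
(with respect to `z`) are both seen with probability `≥ 1/16` has distance `> m` to the wall, if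
`K (m + 1) ≤ h`.
-/

namespace Vale.Agent.P155.NT924

open Finset Relation SW HT T905 T802 G45 NT905 NT733 NT862
open NT802 (Conn)

/-- the free vertices -/
def FV (T : Temp) (E : Set Pt) : Set Pt := {u | u ∉ SS T E}

/-- the component of the tip off `κ` -/
def compV (F κ : Set Pt) (v₁ : Pt) : Set Pt := {v | Conn (F \ κ) v₁ v}

theorem compV_eq {F κ : Set Pt} {v₁ : Pt} (hv : v₁ ∈ F) : compV F κ v₁ = TipC F v₁ κ := by
  ext u
  constructor
  · rintro ⟨h1, h2⟩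
    refine ⟨h1.2, ReflTransGen.mono ?_ _ _ h2⟩
    rintro a b ⟨h3, h4, h5⟩
    exact ⟨h3, h4, h5⟩
  · rintro ⟨h1, h2⟩
    refine ⟨⟨hv, h1⟩, ReflTransGen.mono ?_ _ _ h2⟩
    rintro a b ⟨h3, h4, h5⟩
    exact ⟨h3, h4, h5⟩

theorem FV_finite (T : Temp) (E : Set Pt) : (FV T E).Finite := by
  refine (A1.closedVerts_finite T).subset ?_
  intro u hu
  by_contra h
  exact hu (Or.inr h)

/-- a free face has free corners -/
theorem corner_free {T : Temp} {E : Set Pt} {f u : Pt} (hf : f ∈ OE T E) (hu : u ∈ corners f) :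
    u ∈ FV T E := fun h => notMem_OE_of hu h hf

theorem corner_dn {f u : Pt} (hu : u ∈ corners f) : dn f u ≤ 1 := by
  rw [mem_corners] at hu
  rw [H904.dn_le_iff]
  push_cast
  constructor <;> rw [abs_le] <;> omega

/-- corners of the faces of `W` -/
def cor (W : Set Pt) : Set Pt := {v | ∃ g ∈ W, v ∈ corners g}

/-- the corners of the faces which can be reached from `x` inside `S` -/
theorem cor_conn {R : Pt → Pt → Prop} (hR : ∀ a b, R a b → Adj a b) {x : Pt} :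
    ConnS (cor {g | ReflTransGen R x g}) := by
  set W : Set Pt := {g | ReflTransGen R x g} with hW
  have step : ∀ g ∈ W, ∀ u ∈ corners g, ∀ v ∈ corners g,
      ReflTransGen (fun a b => Adj a b ∧ b ∈ cor W) u v := by
    intro g hg u hu v hv
    refine ReflTransGen.mono ?_ _ _ (NT34.corners_conn hg hu hv)
    rintro a b ⟨h1, h2, h3, h4⟩
    exact ⟨h1, h2, h3, h4⟩
  -- everything is connected to the corner `x`
  have hx : x ∈ W := ReflTransGen.refl
  have key : ∀ g ∈ W, ∀ u ∈ corners g, ReflTransGen (fun a b => Adj a b ∧ b ∈ cor W) x u ∧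
      ReflTransGen (fun a b => Adj a b ∧ b ∈ cor W) u x := by
    intro g hg
    induction (hg : ReflTransGen R x g) with
    | refl =>
      intro u hu
      exact ⟨step x hx x (by simp [corners]) u hu, step x hx u hu x (by simp [corners])⟩
    | tail h1 h2 ih =>
      rename_i b c
      intro u hu
      obtain ⟨y, hy1, hy2⟩ := NT34.common_corner (hR _ _ h2)
      obtain ⟨i1, i2⟩ := ih y hy1
      exact ⟨i1.trans (step c (h1.tail h2) y hy2 u hu), (step c (h1.tail h2) u hu y hy2).trans i2⟩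
  rintro u ⟨g, hg, hu⟩ v ⟨g', hg', hv⟩
  exact (key g hg u hu).2.trans (key g' hg' v hv).1

/-- **the balanced face is fat** -/
theorem fat : ∃ K : ℕ, 1 ≤ K ∧ ∀ {T : Temp} {E : Set Pt}, CPr (OE T E) →
    (∀ u ∈ SS T E, ∀ w ∈ SS T E, LR T E u w) →
    ∀ {v₁ e z : Pt} {h D m : ℕ} {κ₀ : Set Pt}, κ₀ ⊆ FV T E → ConnS κ₀ → z ∈ κ₀ →
    (∀ u ∈ κ₀, dn z u ≤ 2 * h + 2) → v₁ ∉ κ₀ → Conn (FV T E) v₁ z →
    e ∉ compV (FV T E) κ₀ v₁ →
    (∀ κ : Set Pt, κ ⊆ FV T E → κ.Nonempty → ConnS κ → (∃ u ∈ κ, ∃ w ∈ SS T E, Adj u w) →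
      (∃ c, ∀ u ∈ κ, u ∈ box c (h + 1)) → v₁ ∉ κ → e ∉ compV (FV T E) κ v₁ →
      (compV (FV T E) κ₀ v₁).ncard ≤ (compV (FV T E) κ v₁).ncard) →
    ∀ {π : Pt → ZMod 2}, Lab T E v₁ z D π → ∀ {O' : Set Pt},
    (∀ f ∈ O', f ∈ OE T E ∧ D + 1 < dn z f) → O'.Finite → ∀ {U₀ U₁ : Pt → ℝ},
    IsPot O' (bdl T E π 0) U₀ → IsPot O' (bdl T E π 1) U₁ → ∀ {x : Pt}, x ∈ O' →
    1 / 16 ≤ U₀ x → 1 / 16 ≤ U₁ x → K * (m + 1) ≤ h → h + 1 < dn x v₁ → 3 * h + 3 < dn z x →
    ∀ p, p ∉ OE T E → m < dn p x := by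
  obtain ⟨K, hK1, hreach⟩ := reach (c0 := 1 / 16) (by norm_num)
  refine ⟨K, hK1, ?_⟩
  intro T E hCP hconn v₁ e z h D m κ₀ hκF hκc hzκ hκz hvκ hlink heκ hmin π hπ O' hO' hfin U₀ U₁
    hU₀ hU₁ x hx h0 h1 hm hxv hzx p hp
  by_contra hpm
  rw [not_lt] at hpm
  have hOO : O' ⊆ OE T E := fun f hf => (hO' f hf).1
  have hv1F : v₁ ∈ FV T E := hlink.1
  -- the two walks
  have hb0 : ∀ (c : ZMod 2) (U : Pt → ℝ), IsPot O' (bdl T E π c) U → ∀ y, 0 ≤ U y ∧ U y ≤ 1 :=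
    fun c U hU y => ⟨hU.nonneg hfin (bdl_nonneg π c) y, hU.le_one hfin (bdl_le_one π c) y⟩
  have hbd : ∀ (c : ZMod 2) (U : Pt → ℝ), IsPot O' (bdl T E π c) U → ∀ y, y ∉ O' → U y ≠ 0 →
      y ∉ OE T E ∧ π y = c := by
    intro c U hU y hy hne
    rw [hU.2 y hy] at hne
    unfold bdl at hne
    by_contra hcon
    exact hne (if_neg hcon)
  obtain ⟨z0, r0, y0, a0, n0, u0⟩ := hreach (OE T E) O' hCP hOO U₀ (hb0 0 U₀ hU₀) hU₀.1 p x m hp
    hpm hx h0
  obtain ⟨z1, r1, y1, a1, n1, u1⟩ := hreach (OE T E) O' hCP hOO U₁ (hb0 1 U₁ hU₁) hU₁.1 p x m hp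
    hpm hx h1
  obtain ⟨o0, l0⟩ := hbd 0 U₀ hU₀ y0 n0 u0
  obtain ⟨o1, l1⟩ := hbd 1 U₁ hU₁ y1 n1 u1
  -- the set
  obtain ⟨R, hR⟩ : ∃ R : Pt → Pt → Prop,
    R = fun a b => Adj a b ∧ b ∈ O' ∧ dn x b ≤ K * (m + 1) := ⟨_, rfl⟩
  obtain ⟨W, hW⟩ : ∃ W : Set Pt, W = {g | ReflTransGen R x g} := ⟨_, rfl⟩
  have hWx : x ∈ W := by rw [hW]; exact ReflTransGen.refl
  have hWO : ∀ g ∈ W, g ∈ O' ∧ dn x g ≤ K * (m + 1) := by
    intro g hg
    rw [hW] at hg
    rcases ReflTransGen.cases_tail (hg : ReflTransGen R x g) with h2 | ⟨w, _, h2⟩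
    · rw [h2]
      exact ⟨hx, by rw [G45.dn_self]; exact Nat.zero_le _⟩
    · rw [hR] at h2
      exact h2.2
  have hz0 : z0 ∈ W := by rw [hW, hR]; exact r0
  have hz1 : z1 ∈ W := by rw [hW, hR]; exact r1
  obtain ⟨κs, hκs⟩ : ∃ κs : Set Pt, κs = cor W := ⟨_, rfl⟩
  have sF : κs ⊆ FV T E := by
    rw [hκs]
    rintro v ⟨g, hg, hv⟩
    exact corner_free (hOO (hWO g hg).1) hv
  have sbox : ∀ u ∈ κs, dn x u ≤ h + 1 := by
    rw [hκs]
    rintro u ⟨g, hg, hu⟩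
    have e1 := (hWO g hg).2
    have e2 := corner_dn hu
    have e3 := H904.dn_tri x g u
    omega
  have sne : κs.Nonempty := ⟨x, by rw [hκs]; exact ⟨x, hWx, by simp [corners]⟩⟩
  have sc : ConnS κs := by
    rw [hκs, hW]
    exact cor_conn (fun a b hab => by rw [hR] at hab; exact hab.1)
  have swall : ∃ u ∈ κs, ∃ w ∈ SS T E, Adj u w := by
    obtain ⟨c, hc1, hc2⟩ := exists_corner o0
    have hc3 : c ∉ corners z0 := fun hc => corner_free (hOO (hWO z0 hz0).1) hc hc2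
    obtain ⟨u, hu1, _, hu3⟩ := NT34.first_edge a0 hc1 hc3
    exact ⟨u, by rw [hκs]; exact ⟨z0, hz0, hu1⟩, c, hc2, NT34.adjS hu3⟩
  have sv : v₁ ∉ κs := fun hv => by
    have := sbox v₁ hv
    omega
  have sdisj : ∀ u ∈ κ₀, u ∉ κs := by
    intro u hu hus
    have e1 := hκz u hu
    have e2 := sbox u hus
    have e3 := H904.dn_tri z u x
    have e4 : dn u x = dn x u := G45.dn_comm u x
    omega
  -- it separates `z` from the tip
  have szs : z ∉ TipC (FV T E) v₁ κs := by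
    intro hz
    obtain ⟨E', hE'⟩ : ∃ E' : Set Pt, E' = E ∪ TipC (FV T E) v₁ κs := ⟨_, rfl⟩
    have hEE : E ⊆ E' := by rw [hE']; exact Set.subset_union_left
    have hnew : Linked (Nw T E E' z D) v₁ z := by
      have hin : ∀ u, u ∈ TipC (FV T E) v₁ κs → Linked (Nw T E E' z D) v₁ u := by
        rintro u ⟨g1, g2⟩
        induction g2 with
        | refl => exact Linked.refl _ _
        | tail g3 g4 ih =>
          rename_i b c
          have hb : b ∈ TipC (FV T E) v₁ κs := ⟨g1, g3⟩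
          have hc : c ∈ TipC (FV T E) v₁ κs := ⟨g1, g3.tail g4⟩
          have fb : b ∈ FV T E := tipC_fr hv1F hb
          have fc : c ∈ FV T E := tipC_fr hv1F hc
          have eb : b ∈ E' := by rw [hE']; exact Or.inr hb
          exact ih.trans (Linked.edge g4.1 ⟨⟨fb, fc⟩, Or.inl eb⟩ ⟨⟨fc, fb⟩, Or.inr (Or.inl eb)⟩)
      exact hin z hz
    have hoff : ∀ g ∈ W, g ∈ Off T E' z D := by
      intro g hg
      have hgO := hO' g (hWO g hg).1
      refine ⟨⟨hgO.1.1, ?_⟩, hgO.2⟩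
      rintro ⟨v, hv, hvE⟩
      rw [hE'] at hvE
      rcases hvE with hvE | hvE
      · exact hgO.1.2 ⟨v, hv, hvE⟩
      · exact tipC_off hvE (by rw [hκs]; exact ⟨g, hg, hv⟩)
    have hfw : ∀ g ∈ W, FW (Off T E' z D) x g := by
      intro g hg
      rw [hW] at hg
      have hg' : ReflTransGen R x g := hg
      clear hg
      induction hg' with
      | refl => exact ReflTransGen.refl
      | tail g3 g4 ih =>
        rename_i b c
        refine ih.tail ⟨hoff b (by rw [hW]; exact g3), ?_⟩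
        rw [hR] at g4
        exact mem_nbrs.2 g4.1
    have hw0 : FW (Off T E' z D) x y0 := (hfw z0 hz0).tail ⟨hoff z0 hz0, mem_nbrs.2 a0⟩
    have hw1 : FW (Off T E' z D) x y1 := (hfw z1 hz1).tail ⟨hoff z1 hz1, mem_nbrs.2 a1⟩
    have := hπ.sep hEE hconn hnew o0 o1 hw0 hw1
    rw [l0, l1] at this
    exact absurd this (by decide)
  -- the component of the tip is smaller
  obtain ⟨ssub, w, hw1, hw2⟩ := tip_lt hκF hκc sdisj hzκ szs hlink.2
  rw [compV_eq hv1F] at heκ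
  have hle := hmin κs sF sne sc swall ⟨x, fun u hu => G45.mem_box.2 (sbox u hu)⟩ sv
    (by rw [compV_eq hv1F]; exact fun he => heκ (ssub he))
  rw [compV_eq hv1F, compV_eq hv1F] at hle
  have hfinT : (TipC (FV T E) v₁ κ₀).Finite :=
    (FV_finite T E).subset fun u hu => tipC_fr hv1F hu
  have hlt := Set.ncard_lt_ncard (s := TipC (FV T E) v₁ κs) (t := TipC (FV T E) v₁ κ₀)
    ⟨ssub, fun hc => hw2 (hc hw1)⟩ hfinT
  omega

end Vale.Agent.P155.NT924
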