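import Vale.Agent.P155.NT924.FatBal
import Vale.Agent.P155.NT862.Bal

/-!
# P155, NT, US: the walk from a ring leaves the domain through the wall with probability `≥ 1/2`,
and there is no channel of width one at the outermost separating set
-/

namespace Vale.Agent.P155.NT924

open Finset Relation SW HT T905 T802 G45 NT905 NT733 NT862
open NT802 (Conn)

open Classical in
/-- **the walk started on a ring around `z` leaves `O'` through the wall with probability at least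
`1/2`**, if the ring is large compared to the killed ball and small compared to the outer box. -/
theorem half : ∃ K : ℕ, 1 ≤ K ∧ ∀ {T : Temp} {E : Set Pt}, CPr (OE T E) →
    ∀ {z p : Pt} {D N : ℕ}, p ∉ OE T E → dn z p ≤ D + 1 →
    ∀ {O' : Set Pt}, (∀ f ∈ O', f ∈ OE T E) → O'.Finite →
    (∀ f ∈ OE T E, D + 1 < dn z f → dn z f ≤ N → f ∈ O') →
    ∀ {π : Pt → ZMod 2} {U₀ U₁ : Pt → ℝ}, IsPot O' (bdl T E π 0) U₀ →
    IsPot O' (bdl T E π 1) U₁ →
    ∀ f, K * (D + 1) ≤ dn z f → K * (dn z f + 1) ≤ N → 1 / 2 ≤ U₀ f + U₁ f := by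
  obtain ⟨β, hβ, hSD, hOD⟩ := G1.decay
  -- the constant
  obtain ⟨K, hK4, hK⟩ : ∃ K : ℕ, 4 ≤ K ∧ 2 * ((4 : ℝ) / K) ^ β < 1 / 4 := by
    have h1 : Filter.Tendsto (fun K : ℕ => (4 : ℝ) / K) Filter.atTop (nhds 0) :=
      tendsto_const_div_atTop_nhds_zero_nat 4
    have h2 := h1.rpow_const (p := β) (Or.inr hβ.le)
    rw [Real.zero_rpow hβ.ne'] at h2
    have h3 := h2.const_mul 2
    rw [mul_zero] at h3
    obtain ⟨K, h4, h5⟩ := ((h3.eventually (gt_mem_nhds (show (0 : ℝ) < 1 / 4 by norm_num))).and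
      (Filter.eventually_ge_atTop 4)).exists
    exact ⟨K, h5, h4⟩
  refine ⟨K, by omega, ?_⟩
  intro T E hCP z p D N hp hzp O' hO' hfin hbig π U₀ U₁ hU₀ hU₁ f hf1 hf2
  have hOfin : (OE T E).Finite := by
    refine (Temp.faceSet_finite T).subset ?_
    intro g hg
    exact hg.1
  -- the complementary potential
  obtain ⟨gi, hgi⟩ : ∃ gi : Pt → ℝ, gi = fun y => if y ∈ OE T E ∧ dn z y ≤ D + 1 then 1 else 0 :=
    ⟨_, rfl⟩
  obtain ⟨go', hgo⟩ : ∃ go' : Pt → ℝ, go' = fun y => if y ∈ OE T E ∧ N < dn z y then 1 else 0 :=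
    ⟨_, rfl⟩
  obtain ⟨Gi, hGi⟩ := exists_pot hfin gi
  obtain ⟨Go, hGo⟩ := exists_pot hfin go'
  have gi0 : ∀ y, 0 ≤ gi y := fun y => by rw [hgi]; simp only; split_ifs <;> norm_num
  have gi1 : ∀ y, gi y ≤ 1 := fun y => by rw [hgi]; simp only; split_ifs <;> norm_num
  have go0 : ∀ y, 0 ≤ go' y := fun y => by rw [hgo]; simp only; split_ifs <;> norm_num
  have go1 : ∀ y, go' y ≤ 1 := fun y => by rw [hgo]; simp only; split_ifs <;> norm_num
  have hGi0 := hGi.nonneg hfin gi0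
  have hGi1 := hGi.le_one hfin gi1
  have hGo0 := hGo.nonneg hfin go0
  have hGo1 := hGo.le_one hfin go1
  -- `1 ≤ U₀ + U₁ + Gi + Go`
  have hsum : 1 ≤ U₀ f + U₁ f + (Gi f + Go f) := by
    have := G45.comparison hfin (u := fun _ => 1)
      (v := fun y => (U₀ y + U₁ y) + (Gi y + Go y))
      (fun y hy => by
        rw [G45.lap_const, G45.lap_add, G45.lap_add, G45.lap_add, hU₀.1 y hy, hU₁.1 y hy,
          hGi.1 y hy, hGo.1 y hy]
        norm_num)
      (fun y hy => by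
        rw [hU₀.2 y hy, hU₁.2 y hy, hGi.2 y hy, hGo.2 y hy]
        have b0 := bdl_nonneg (T := T) (E := E) π 0 y
        have b1 := bdl_nonneg (T := T) (E := E) π 1 y
        by_cases hyO : y ∈ OE T E
        · by_cases h1 : dn z y ≤ D + 1
          · have : gi y = 1 := by rw [hgi]; simp only; rw [if_pos ⟨hyO, h1⟩]
            have := go0 y
            linarith
          · have h2 : N < dn z y := by
              by_contra hc
              exact hy (hbig y hyO (by omega) (by omega))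
            have : go' y = 1 := by rw [hgo]; simp only; rw [if_pos ⟨hyO, h2⟩]
            have := gi0 y
            linarith
        · have hπ : π y = 0 ∨ π y = 1 := by
            generalize π y = c
            revert c
            decide
          have := gi0 y
          have := go0 y
          rcases hπ with h | h
          · have : bdl T E π 0 y = 1 := by unfold bdl; rw [if_pos ⟨hyO, h⟩]
            linarith
          · have : bdl T E π 1 y = 1 := by unfold bdl; rw [if_pos ⟨hyO, h⟩]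
            linarith) f
    simpa using this
  have hpz : dn p z ≤ D + 1 := by rw [G45.dn_comm]; exact hzp
  have tri1 : ∀ y, dn p y ≤ dn z y + (D + 1) := fun y => by
    have := G45.dn_tri p z y
    omega
  have tri2 : ∀ y, dn z y ≤ dn p y + (D + 1) := fun y => by
    have := G45.dn_tri z p y
    omega
  have hK0 : (0 : ℝ) < K := by
    have : 0 < K := by omega
    exact_mod_cast this
  have hKD : 4 * (D + 1) ≤ K * (D + 1) := Nat.mul_le_mul_right _ hK4
  have hKN : 4 * (dn z f + 1) ≤ K * (dn z f + 1) := Nat.mul_le_mul_right _ hK4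
  -- the inner part
  have hin : Gi f < 1 / 4 := by
    have hρ : 2 * D + 2 < dn p f := by
      have := tri2 f
      omega
    have h := hOD (O' ∪ {y | y ∈ OE T E ∧ dn z y ≤ D + 1}) p (2 * D + 2) 1 Gi
      (hfin.union (hOfin.subset fun y hy => hy.1))
      (fun r => by
        obtain ⟨q, hq, hr⟩ := hCP p hp r
        refine ⟨q, ?_, hr⟩
        rintro (h | h)
        · exact hq (hO' q h)
        · exact hq h.1)
      (fun y hy => by
        have hy' : y ∉ O' := fun h => hy (Or.inl h)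
        rw [hGi.2 y hy', hgi]
        exact if_neg (fun h => hy (Or.inr h)))
      (fun y hy hyρ => by
        rcases hy with h | h
        · exact hGi.1 y h
        · exfalso
          have := tri1 y
          have := h.2
          omega)
      (fun y _ => by rw [abs_le]; constructor <;> linarith [hGi0 y, hGi1 y]) f hρ
    rw [mul_one] at h
    refine lt_of_le_of_lt ((le_abs_self _).trans h) (lt_of_le_of_lt ?_ hK)
    refine mul_le_mul_of_nonneg_left (Real.rpow_le_rpow (by positivity) ?_ hβ.le) (by norm_num)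
    rw [div_le_div_iff₀ (by positivity) hK0]
    have e1 : K * (D + 1) ≤ dn p f + (D + 1) := hf1.trans (tri2 f)
    have e2 : (K : ℝ) * (D + 1) ≤ dn p f + (D + 1) := by exact_mod_cast e1
    have e3 : (4 : ℝ) ≤ K := by exact_mod_cast hK4
    push_cast
    nlinarith
  -- the outer part
  have hout : Go f < 1 / 4 := by
    have hDs : D + 1 ≤ dn z f := by
      have : 1 * (D + 1) ≤ K * (D + 1) := Nat.mul_le_mul_right _ (by omega)
      omega
    obtain ⟨L, hL⟩ : ∃ L : ℕ, L = N - (D + 1) := ⟨_, rfl⟩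
    have hpL : dn p f ≤ L := by
      have := tri1 f
      omega
    have h := hSD (O' ∪ {y | y ∈ OE T E ∧ N < dn z y}) p L 1 Go
      (fun r _ => by
        obtain ⟨q, hq, hr⟩ := hCP p hp r
        refine ⟨q, ?_, hr⟩
        rintro (h | h)
        · exact hq (hO' q h)
        · exact hq h.1)
      (fun y hy => by
        have hy' : y ∉ O' := fun h => hy (Or.inl h)
        rw [hGo.2 y hy', hgo]
        exact if_neg (fun h => hy (Or.inr h)))
      (fun y hy hyρ => by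
        rcases hy with h | h
        · exact hGo.1 y h
        · exfalso
          have := tri2 y
          have := h.2
          omega)
      (fun y _ => by rw [abs_le]; constructor <;> linarith [hGo0 y, hGo1 y]) f hpL
    rw [mul_one] at h
    refine lt_of_le_of_lt ((le_abs_self _).trans h) (lt_of_le_of_lt ?_ hK)
    refine mul_le_mul_of_nonneg_left (Real.rpow_le_rpow (by positivity) ?_ hβ.le) (by norm_num)
    rw [div_le_div_iff₀ (by positivity) hK0]
    have e1 : K * (dn z f + 1) ≤ N := hf2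
    have e2 : (K : ℝ) * (dn z f + 1) ≤ L + (D + 1) := by
      have : K * (dn z f + 1) ≤ L + (D + 1) := by omega
      exact_mod_cast this
    have e3 : (dn p f : ℝ) ≤ dn z f + (D + 1) := by exact_mod_cast tri1 f
    have e4 : (D : ℝ) + 1 ≤ dn z f := by exact_mod_cast hDs
    have e5 : (4 : ℝ) ≤ K := by exact_mod_cast hK4
    nlinarith
  linarith

/-! ### no channel of width one -/

/-- separation across one edge -/
theorem sep_edge {T : Temp} {E E' : Set Pt} {v₁ z : Pt}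
    (hconn : ∀ u ∈ SS T E, ∀ w ∈ SS T E, LR T E u w) {D : ℕ} {π : Pt → ZMod 2}
    (hπ : Lab T E v₁ z D π) (hnew : Linked (Nw T E E' z D) v₁ z) {w w' : Pt} (hw : w ∉ OE T E)
    (hw' : w' ∉ OE T E) (hww : w' ∈ nbrs w)
    (hc : ∀ u ∈ corners w, u ∈ corners w' → u ∉ SS T E ∧ u ∉ E' ∧ D < dn z u) : π w = π w' := by
  obtain ⟨a₀, b₀, ka, kb, h₀, hk, rfl⟩ := hπ
  obtain ⟨a₁, b₁, h₁⟩ := hnew
  have hF : Chain (Fr T E) z z (fun u => a₀ u + a₁ u) (fun u => b₀ u + b₁ u) :=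
    h₀.symm.add (h₁.mono fun _ _ h => h.1)
  have c1 := fr_const hF hconn hw hw'
  have hG : Chain (fun u w => Kw T E z D u w ∨ Nw T E E' z D u w) v₁ v₁
      (fun u => a₁ u + ka u) (fun u => b₁ u + kb u) :=
    (h₁.mono fun _ _ h => Or.inr h).add (hk.mono fun _ _ h => Or.inl h)
  have c2 : par (fun u => a₁ u + ka u) w = par (fun u => a₁ u + ka u) w' := by
    by_contra hne
    obtain ⟨u, v, hP, hu, hv, hu', hv'⟩ := cross_edge hG hww hne
    obtain ⟨u1, u2, u3⟩ := hc u hu hu'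
    obtain ⟨v1, v2, v3⟩ := hc v hv hv'
    rcases hP with (h | h | h) | ⟨_, h | h | h⟩
    · exact u1 h
    · exact v1 h
    · omega
    · exact u2 h
    · exact v2 h
    · omega
  obtain ⟨N0, hN0⟩ := h₀.bd
  obtain ⟨N1, hN1⟩ := h₁.bd
  obtain ⟨Nk, hNk⟩ := hk.bd
  have e1 := fun g => NT733.par_add (f := g) (fun v hv => (hN0 v hv).1) (fun v hv => (hN1 v hv).1)
  have e2 := fun g => NT733.par_add (f := g) (fun v hv => (hN1 v hv).1) (fun v hv => (hNk v hv).1)
  have e3 := fun g => NT733.par_add (f := g) (fun v hv => (hN0 v hv).1) (fun v hv => (hNk v hv).1)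
  rw [e1, e1] at c1
  rw [e2, e2] at c2
  rw [e3, e3]
  have key : ∀ p q r p' q' r' : ZMod 2, p + q = p' + q' → q + r = q' + r' → p + r = p' + r' := by
    decide
  exact key _ _ _ _ _ _ c1 c2

theorem common_conn {x x' : Pt} (h : x' ∈ nbrs x) :
    ConnS {u | u ∈ corners x ∧ u ∈ corners x'} := by
  have key : ∀ u v : Pt, (u ∈ corners x ∧ u ∈ corners x') → (v ∈ corners x ∧ v ∈ corners x') →
      u = v ∨ Adj u v := by
    intro u v hu hv
    obtain ⟨a, b⟩ := x
    obtain ⟨p, q⟩ := u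
    obtain ⟨p', q'⟩ := v
    rw [← mem_nbrs]
    simp only [nbrs, mem_insert, mem_singleton] at h
    simp only [mem_corners] at hu hv
    simp only [nbrs, mem_insert, mem_singleton, Prod.mk.injEq]
    rcases h with rfl | rfl | rfl | rfl <;> simp only at hu hv <;> omega
  intro u hu v hv
  rcases key u v hu hv with rfl | h
  · exact ReflTransGen.refl
  · exact ReflTransGen.single ⟨h, hv⟩

/-- **no channel of width one at the outermost separating set** -/
theorem no_channel {T : Temp} {E : Set Pt} (hconn : ∀ u ∈ SS T E, ∀ w ∈ SS T E, LR T E u w)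
    {v₁ e z : Pt} {h D : ℕ} {κ₀ : Set Pt} (hκF : κ₀ ⊆ FV T E) (hκc : ConnS κ₀) (hzκ : z ∈ κ₀)
    (hκz : ∀ u ∈ κ₀, dn z u ≤ 2 * h + 2) (hlink : Conn (FV T E) v₁ z)
    (heκ : e ∉ compV (FV T E) κ₀ v₁)
    (hmin : ∀ κ : Set Pt, κ ⊆ FV T E → κ.Nonempty → ConnS κ → (∃ u ∈ κ, ∃ w ∈ SS T E, Adj u w) →
      (∃ c, ∀ u ∈ κ, u ∈ box c (h + 1)) → v₁ ∉ κ → e ∉ compV (FV T E) κ v₁ →
      (compV (FV T E) κ₀ v₁).ncard ≤ (compV (FV T E) κ v₁).ncard)
    {π : Pt → ZMod 2} (hπ : Lab T E v₁ z D π) {x x' : Pt} (hxx : x' ∈ nbrs x) (hx : x ∉ OE T E)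
    (hx' : x' ∉ OE T E) (hne : π x ≠ π x') (hfree : ∀ u ∈ corners x, u ∈ corners x' → u ∉ SS T E)
    (hxv : 1 < dn x v₁) (hzx : 2 * h + 3 < dn z x) (hD : D + 1 < dn z x) : False := by
  have hv1F : v₁ ∈ FV T E := hlink.1
  obtain ⟨κs, hκs⟩ : ∃ κs : Set Pt, κs = {u | u ∈ corners x ∧ u ∈ corners x'} := ⟨_, rfl⟩
  have hadj : Adj x' x := NT34.adjS (mem_nbrs.1 hxx)
  have sF : κs ⊆ FV T E := by
    rw [hκs]
    rintro v ⟨h1, h2⟩
    exact hfree v h1 h2
  have sbox : ∀ u ∈ κs, dn x u ≤ 1 := by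
    rw [hκs]
    rintro u ⟨h1, _⟩
    exact corner_dn h1
  have sne : κs.Nonempty := by
    obtain ⟨y, h1, h2⟩ := NT34.common_corner hadj
    exact ⟨y, by rw [hκs]; exact ⟨h2, h1⟩⟩
  have sc : ConnS κs := by rw [hκs]; exact common_conn hxx
  have swall : ∃ u ∈ κs, ∃ w ∈ SS T E, Adj u w := by
    obtain ⟨c, hc1, hc2⟩ := exists_corner hx
    have hc3 : c ∉ corners x' := fun hc => hfree c hc1 hc hc2
    obtain ⟨u, hu1, hu2, hu3⟩ := NT34.first_edge hadj hc1 hc3
    exact ⟨u, by rw [hκs]; exact ⟨hu2, hu1⟩, c, hc2, NT34.adjS hu3⟩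
  have sv : v₁ ∉ κs := fun hv => by
    have := sbox v₁ hv
    omega
  have sdisj : ∀ u ∈ κ₀, u ∉ κs := by
    intro u hu hus
    have e1 := hκz u hu
    have e2 := sbox u hus
    have e3 := H904.dn_tri z u x
    have e4 : dn u x = dn x u := G45.dn_comm u x
    omega
  have szs : z ∉ TipC (FV T E) v₁ κs := by
    intro hz
    obtain ⟨E', hE'⟩ : ∃ E' : Set Pt, E' = E ∪ TipC (FV T E) v₁ κs := ⟨_, rfl⟩
    have hnew : Linked (Nw T E E' z D) v₁ z := by
      have hin : ∀ u, u ∈ TipC (FV T E) v₁ κs → Linked (Nw T E E' z D) v₁ u := by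
        rintro u ⟨g1, g2⟩
        induction g2 with
        | refl => exact Linked.refl _ _
        | tail g3 g4 ih =>
          rename_i b c
          have hb : b ∈ TipC (FV T E) v₁ κs := ⟨g1, g3⟩
          have hc : c ∈ TipC (FV T E) v₁ κs := ⟨g1, g3.tail g4⟩
          have fb : b ∈ FV T E := tipC_fr hv1F hb
          have fc : c ∈ FV T E := tipC_fr hv1F hc
          have eb : b ∈ E' := by rw [hE']; exact Or.inr hb
          exact ih.trans (Linked.edge g4.1 ⟨⟨fb, fc⟩, Or.inl eb⟩ ⟨⟨fc, fb⟩, Or.inr (Or.inl eb)⟩)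
      exact hin z hz
    refine hne (sep_edge hconn hπ hnew hx hx' hxx ?_)
    intro u hu hu'
    have hus : u ∈ κs := by rw [hκs]; exact ⟨hu, hu'⟩
    refine ⟨hfree u hu hu', ?_, corner_far hD hu⟩
    rw [hE']
    rintro (h1 | h1)
    · exact hfree u hu hu' (Or.inl h1)
    · exact tipC_off h1 hus
  obtain ⟨ssub, w, hw1, hw2⟩ := tip_lt hκF hκc sdisj hzκ szs hlink.2
  rw [compV_eq hv1F] at heκ
  have hle := hmin κs sF sne sc swall ⟨x, fun u hu => G45.mem_box.2 ((sbox u hu).trans (by omega))⟩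
    sv (by rw [compV_eq hv1F]; exact fun he => heκ (ssub he))
  rw [compV_eq hv1F, compV_eq hv1F] at hle
  have hfinT : (TipC (FV T E) v₁ κ₀).Finite :=
    (FV_finite T E).subset fun u hu => tipC_fr hv1F hu
  have hlt := Set.ncard_lt_ncard (s := TipC (FV T E) v₁ κs) (t := TipC (FV T E) v₁ κ₀)
    ⟨ssub, fun hc => hw2 (hc hw1)⟩ hfinT
  omega

/-- **the balanced face at the outermost separating set, fat** -/
theorem bal_fat : ∃ K : ℕ, 1 ≤ K ∧ ∀ {T : Temp} {E : Set Pt}, CPr (OE T E) →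
    (∀ u ∈ SS T E, ∀ w ∈ SS T E, LR T E u w) →
    ∀ {v₁ e z : Pt} {h D m N s : ℕ} {κ₀ : Set Pt}, κ₀ ⊆ FV T E → ConnS κ₀ → z ∈ κ₀ →
    (∀ u ∈ κ₀, dn z u ≤ 2 * h + 2) → v₁ ∉ κ₀ → Conn (FV T E) v₁ z →
    e ∉ compV (FV T E) κ₀ v₁ →
    (∀ κ : Set Pt, κ ⊆ FV T E → κ.Nonempty → ConnS κ → (∃ u ∈ κ, ∃ w ∈ SS T E, Adj u w) →
      (∃ c, ∀ u ∈ κ, u ∈ box c (h + 1)) → v₁ ∉ κ → e ∉ compV (FV T E) κ v₁ →
      (compV (FV T E) κ₀ v₁).ncard ≤ (compV (FV T E) κ v₁).ncard) →
    (∃ p, p ∉ OE T E ∧ dn z p ≤ D + 1) →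
    ∀ {π : Pt → ZMod 2}, Lab T E v₁ z D π → ∀ {O' : Set Pt},
    (∀ f ∈ O', f ∈ OE T E ∧ D + 1 < dn z f) → O'.Finite →
    (∀ f ∈ OE T E, D + 1 < dn z f → dn z f ≤ N → f ∈ O') →
    ∀ {U₀ U₁ : Pt → ℝ}, IsPot O' (bdl T E π 0) U₀ → IsPot O' (bdl T E π 1) U₁ →
    K * (m + 1) ≤ h → K * (D + 1) ≤ s → K * (h + 1) ≤ s → K * (s + 1) ≤ N →
    s + h + 1 < dn z v₁ →
    ∃ x, dn z x = s ∧ x ∈ OE T E ∧ x ∈ O' ∧ 1 / 16 ≤ U₀ x ∧ 1 / 16 ≤ U₁ x ∧
      ∀ p, p ∉ OE T E → m < dn p x := by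
  obtain ⟨K1, h11, hfat⟩ := fat
  obtain ⟨K2, h21, hhalf⟩ := half
  refine ⟨max (max K1 K2) 4, by omega, ?_⟩
  intro T E hCP hconn v₁ e z h D m N s κ₀ hκF hκc hzκ hκz hvκ hlink heκ hmin hp π hπ O' hO' hfin
    hbig U₀ U₁ hU₀ hU₁ hm hsD hsh hsN hsv
  obtain ⟨K, hKd⟩ : ∃ K, K = max (max K1 K2) 4 := ⟨_, rfl⟩
  rw [← hKd] at hm hsD hsh hsN
  have k1 : K1 ≤ K := by omega
  have k2 : K2 ≤ K := by omega
  have k4 : 4 ≤ K := by omega
  have g1 : K1 * (m + 1) ≤ h := (Nat.mul_le_mul_right _ k1).trans hm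
  have g2 : K2 * (D + 1) ≤ s := (Nat.mul_le_mul_right _ k2).trans hsD
  have g3 : K2 * (s + 1) ≤ N := (Nat.mul_le_mul_right _ k2).trans hsN
  have g4 : 4 * (h + 1) ≤ s := (Nat.mul_le_mul_right _ k4).trans hsh
  have g5 : 4 * (D + 1) ≤ s := (Nat.mul_le_mul_right _ k4).trans hsD
  have g6 : 4 * (s + 1) ≤ N := (Nat.mul_le_mul_right _ k4).trans hsN
  obtain ⟨p, hpO, hzp⟩ := hp
  have hOO : O' ⊆ OE T E := fun f hf => (hO' f hf).1
  have hsum : ∀ f, dn z f = s → f ∈ OE T E → 1 / 2 ≤ U₀ f + U₁ f := by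
    intro f hf _
    exact hhalf hCP hpO hzp hOO hfin hbig hU₀ hU₁ f (by rw [hf]; exact g2) (by rw [hf]; exact g3)
  have hring : ∀ f, dn z f = s → f ∈ OE T E → f ∈ O' := by
    intro f hf hfO
    exact hbig f hfO (by omega) (by omega)
  have dxv : ∀ x, dn z x = s → h + 1 < dn x v₁ := by
    intro x hx
    have := H904.dn_tri z x v₁
    omega
  rcases bal hπ (by omega) (by omega) hOO hfin hring hU₀ hU₁ hsum with
    ⟨x, hx, hxO, u0, u1⟩ | ⟨x, x', hx, _, hxx, hxO, hxO', hne, hfree⟩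
  · refine ⟨x, hx, hxO, hring x hx hxO, u0, u1, ?_⟩
    exact hfat hCP hconn hκF hκc hzκ hκz hvκ hlink heκ hmin hπ hO' hfin hU₀ hU₁ (hring x hx hxO)
      u0 u1 g1 (dxv x hx) (by omega)
  · exact absurd (no_channel hconn hκF hκc hzκ hκz hlink heκ hmin hπ hxx hxO hxO' hne hfree
      (by have := dxv x hx; omega) (by omega) (by omega)) id

end Vale.Agent.P155.NT924
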