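import Vale.Agent.P155.NT924.Inner

/-!
# P155, NT, US: the one-point estimate in the form of the assembly, from the scale `dF ≤ 2 κ`
-/

namespace Vale.Agent.P155.NT924

open Finset Relation SW HT T905 T802 G45 NT NT905 NT733 NT862 Skel NT802 NT276 NT814.US

/-- the inner glue for one window -/
theorem inner_one (h : OP1Q 2) : ∀ c δ d θ a1 : ℝ, 0 < c → 0 < δ → 0 < d → 0 < θ → 0 < a1 →
    ∃ b : ℝ, 0 < b ∧ ∃ C : ℝ, 0 ≤ C ∧ ∃ R0 : ℕ, ∀ R : ℕ, R0 ≤ R →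
    ∀ T : Temp, Fits T R → ∀ (xS : ℤ) (q : Pt) (r r1 r2 k : ℕ), c * R ≤ r → r ≤ R →
    (16 * r : ℤ) ≤ |q.1 - xS| → (r2 : ℝ) + δ * R ≤ r1 → r1 + 3 ≤ 2 * r →
    ∀ D N s κ κ' : ℕ, (N : ℝ) ≤ min δ θ * R → 4 * (D + 1) ≤ s → 4 * (2 * s + 1) ≤ N →
    (R : ℝ) ^ a1 ≤ κ → κ ≤ 3 * s → κ' ≤ κ → κ ≤ 2 * κ' →
    ∀ (S : Conf → Prop) (z x : Conf → Pt), NT905.At (NT905.tE T.V xS q r k) S →
    NT905.At (NT905.tE T.V xS q r k) z → NT905.At (NT905.tE T.V xS q r k) x →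
    (∀ ω ∈ DD T.V, S ω →
      OPHyp T xS ω q r r1 r2 k ⌊d * R⌋₊ (θ * R) D N s κ (z ω) (x ω) ∧
      dF (OE T (EN T xS ω q r k)) (x ω) ≤ 2 * κ' ∧
      20 * κ' ≤ 11 * dF (OE T (EN T xS ω q r k)) (x ω) + 40) →
    Pr T.V (fun ω => S ω ∧ Vis T xS ω q r k (z ω) D) ≤
      C * ((R : ℝ) ^ (-b) + ((κ : ℝ) / R) ^ b) := by
  classical
  obtain ⟨K0, hK0, hloc⟩ := local_bdl (c0 := 1 / 32) (by norm_num)
  intro c δ d θ a1 hc hδ hd hθ ha1
  obtain ⟨β, hβ, C, hC, R0, hR0⟩ := h (12 * K0) c (δ / 2) (θ / 2) (a1 / 2) hc (by positivity)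
    (by positivity) (by positivity)
  have hev : ∀ᶠ R : ℝ in Filter.atTop, 1 ≤ R ∧ 100 ≤ R ^ a1 ∧ 3 * R ^ (a1 / 2) + 1 ≤ R ^ a1 ∧
      2 ≤ d * R ∧ 1 ≤ c * R := by
    have t1 : Filter.Tendsto (fun R : ℝ => d * R) Filter.atTop Filter.atTop :=
      Filter.tendsto_id.const_mul_atTop hd
    have t2 : Filter.Tendsto (fun R : ℝ => c * R) Filter.atTop Filter.atTop :=
      Filter.tendsto_id.const_mul_atTop hc
    have t3 : Filter.Tendsto (fun R : ℝ => R ^ a1) Filter.atTop Filter.atTop :=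
      tendsto_rpow_atTop ha1
    filter_upwards [Filter.eventually_ge_atTop 1, t1.eventually_ge_atTop 2,
      t2.eventually_ge_atTop 1, t3.eventually_ge_atTop 100,
      ev_le (A := 3) (B := 1) (c := 1) (a := a1 / 2) (b := a1) (by norm_num) (by norm_num)
        one_pos (by positivity) (by linarith)] with R h1 h2 h3 h4 h5
    exact ⟨h1, h4, by linarith, h2, h3⟩
  obtain ⟨R1, hR1⟩ := Filter.eventually_atTop.1 hev
  refine ⟨β, hβ, C * (1 + (2 / d) ^ β), by positivity,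
    max R0 (⌈R1⌉₊ + 1), ?_⟩
  intro R hR T hfit xS q r r1 r2 k hcr hrR hx hr2 hr1 D N s κ κ' hN hD hsN hκ hκs hκ1' hκ2' S z x
    hS hz hxm hyp
  have hRR : R1 ≤ (R : ℝ) := (Nat.le_ceil R1).trans (by
    exact_mod_cast (by omega : ⌈R1⌉₊ ≤ R))
  obtain ⟨e1, e2, e3, e4, e5⟩ := hR1 R hRR
  have hR00 : (0 : ℝ) < R := by linarith
  have hr11 : 1 ≤ r := by
    have : (1 : ℝ) ≤ r := e5.trans hcr
    exact_mod_cast this
  -- the scale
  have hκ10 : 100 ≤ κ := by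
    have : (100 : ℝ) ≤ κ := e2.trans hκ
    exact_mod_cast this
  have k1 : κ ≤ 3 * κ' := by omega
  have hκa : (R : ℝ) ^ (a1 / 2) ≤ κ' := by
    have : (κ : ℝ) ≤ 3 * κ' := by exact_mod_cast k1
    linarith
  obtain ⟨d', hd'⟩ : ∃ d' : ℕ, d' = ⌊d * R⌋₊ := ⟨_, rfl⟩
  have hd1 : d * R < d' + 1 := by rw [hd']; exact Nat.lt_floor_add_one _
  have hd2 : d * R ≤ 2 * d' := by linarith
  have hd3 : 1 ≤ d' := by
    have : (0 : ℝ) < d' := by linarith
    exact_mod_cast this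
  have hNδ : (N : ℝ) ≤ δ * R := hN.trans (mul_le_mul_of_nonneg_right (min_le_left _ _) hR00.le)
  have hNθ : (N : ℝ) ≤ θ * R := hN.trans (mul_le_mul_of_nonneg_right (min_le_right _ _) hR00.le)
  have hEN : ∀ ω, (tE T.V xS q r k).toStop.E ω = EN T xS ω q r k := by
    intro ω
    rw [Tm.GTime.toStop_E, tE_N]
    rfl
  have key := hR0 R (le_trans (le_max_left _ _) hR) T hfit xS q r r1 k κ' D d' hcr hrR hx hr1 hκa
    hd3 S x z (fun ω => labOf T (EN T xS ω q r k) (v1N T xS q r k ω) (z ω) D)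
    (fun ω => {y | y ∈ OD T (EN T xS ω q r k) (z ω) D N ∧ dn (x ω) y ≤ 12 * K0 * κ'})
    (measS_of_at hS) (measS_of_at hxm) ?_
  · -- conclusion
    have hPrS : Pr T.V S ≤ 1 := E.Pr_le_one _ _
    have hPr0 : 0 ≤ Pr T.V S := E.Pr_nonneg _ _
    have hκR : ((κ' : ℝ) / R) ^ β ≤ ((κ : ℝ) / R) ^ β := by
      apply Real.rpow_le_rpow (by positivity) _ hβ.le
      apply div_le_div_of_nonneg_right _ hR00.le
      exact_mod_cast (by omega : κ' ≤ κ)
    have hκd : ((κ' : ℝ) / d') ^ β ≤ (2 / d) ^ β * ((κ : ℝ) / R) ^ β := by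
      rw [← Real.mul_rpow (by positivity) (by positivity)]
      apply Real.rpow_le_rpow (by positivity) _ hβ.le
      have hd'0 : (0 : ℝ) < d' := by exact_mod_cast hd3
      have hκκ : (κ' : ℝ) ≤ κ := by exact_mod_cast (by omega : κ' ≤ κ)
      rw [div_mul_div_comm, div_le_div_iff₀ hd'0 (by positivity)]
      have h1 : (κ' : ℝ) * (d * R) ≤ κ * (2 * d') :=
        mul_le_mul hκκ hd2 (by positivity) (by positivity)
      linarith
    have hRb : (0 : ℝ) ≤ (R : ℝ) ^ (-β) := by positivity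
    have hκ0 : (0 : ℝ) ≤ ((κ : ℝ) / R) ^ β := by positivity
    have h2d : (0 : ℝ) ≤ (2 / d) ^ β := by positivity
    have hsum : ((κ' : ℝ) / d') ^ β * Pr T.V S + ((κ' : ℝ) / R) ^ β + (R : ℝ) ^ (-β) ≤
        (1 + (2 / d) ^ β) * ((R : ℝ) ^ (-β) + ((κ : ℝ) / R) ^ β) := by
      have h1 : ((κ' : ℝ) / d') ^ β * Pr T.V S ≤ (2 / d) ^ β * ((κ : ℝ) / R) ^ β := by
        calc ((κ' : ℝ) / d') ^ β * Pr T.V S ≤ ((κ' : ℝ) / d') ^ β * 1 :=
              mul_le_mul_of_nonneg_left hPrS (by positivity)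
          _ ≤ _ := by rw [mul_one]; exact hκd
      nlinarith [mul_nonneg h2d hRb]
    have hmono : Pr T.V (fun ω => S ω ∧ Vis T xS ω q r k (z ω) D) ≤
        Pr T.V (fun ω => S ω ∧ ∃ m, eN T xS ω q r k < m ∧ m < xN T xS ω q r k ∧
          gN T xS ω m ∈ FB T ((tE T.V xS q r k).toStop.E ω) (z ω) D) := by
      apply E.Pr_mono
      rintro ω _ ⟨h1, n, h2, h3, h4⟩
      refine ⟨h1, n, h2, h3, ?_⟩
      rw [hEN]
      exact h4
    calc _ ≤ _ := hmono.trans key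
      _ ≤ C * ((1 + (2 / d) ^ β) * ((R : ℝ) ^ (-β) + ((κ : ℝ) / R) ^ β)) :=
          mul_le_mul_of_nonneg_left hsum hC
      _ = _ := by ring
  · intro ω hω hSω
    obtain ⟨H, hup', h11⟩ := hyp ω hω hSω
    obtain ⟨x1, x2, x3, x4, x5, x6⟩ := H.bal
    have hup := H.up
    obtain ⟨w, hwS, hwd⟩ := H.wall
    have hwO : w ∉ OE T (EN T xS ω q r k) := fun h => corner_free h (by simp [corners]) hwS
    have hdx : dF (OE T (EN T xS ω q r k)) (x ω) ≤ dn (x ω) (z ω) + D := by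
      have a1 := G45.dF_le (x := x ω) hwO
      have a2 := H904.dn_tri (x ω) (z ω) w
      omega
    have hxz : dn (x ω) (z ω) = dn (z ω) (x ω) := G45.dn_comm _ _
    rw [hEN]
    refine ⟨H.lt, by rw [hd']; exact H.sep, by omega, by omega, ?_, ?_, ?_, ?_, ?_, ?_⟩
    · -- inside the SEP zone
      have a1 : dn q (z ω) ≤ r2 := J.dn_le_iff.2 H.box
      have a2 := H904.dn_tri q (z ω) (x ω)
      have a3 : (dn q (x ω) : ℝ) ≤ r2 + 2 * s := by
        have : dn q (x ω) ≤ r2 + 2 * s := by omega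
        exact_mod_cast this
      have a4 : (2 * s * 4 : ℝ) ≤ N := by
        have : 2 * s * 4 ≤ N := by omega
        exact_mod_cast this
      nlinarith
    · -- away from the polygon
      obtain ⟨f, hf, hfd⟩ := G45.exists_dF (G45.exists_notMem T.faceSet_finite) (x ω)
      rw [← hfd]
      have a1 := H.poly f hf
      have a2 := G45.dn_tri f (x ω) (z ω)
      have a3 : (dn f (z ω) : ℝ) ≤ dn f (x ω) + dn (x ω) (z ω) := by exact_mod_cast a2
      have a4 : (dn (x ω) (z ω) : ℝ) ≤ 2 * s := by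
        rw [hxz]
        exact_mod_cast x2
      have a5 : (2 * s * 4 : ℝ) ≤ N := by
        have : 2 * s * 4 ≤ N := by omega
        exact_mod_cast this
      rw [G45.dn_comm (x ω) f]
      nlinarith
    · -- labels
      rw [v1N_eq hω hr11 hx (enter_lt hω hr11 hx H.lt)]
      exact labOf_spec H.lab
    · rintro f ⟨⟨f1, f2, _⟩, f4⟩
      exact ⟨f1, f2, f4⟩
    · intro f hf
      have b1 : f ∈ OE T (EN T xS ω q r k) := G45.mem_of_lt_dF (x := x ω) (by omega)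
      have b2 := H904.dn_tri (z ω) f (x ω)
      rw [G45.dn_comm f (x ω)] at b2
      have b3 := H904.dn_tri (z ω) (x ω) f
      refine ⟨⟨b1, by omega, by omega⟩, ?_⟩
      have : 1 * κ' ≤ 12 * K0 * κ' := Nat.mul_le_mul_right _ (by omega)
      omega
    · intro U₀ U₁ hU₀ hU₁
      have hM : K0 * (2 * κ' + 1) ≤ 12 * K0 * κ' := by
        have : K0 * (2 * κ' + 1) ≤ K0 * (12 * κ') := Nat.mul_le_mul_left _ (by omega)
        calc _ ≤ K0 * (12 * κ') := this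
          _ = 12 * K0 * κ' := by ring
      have c0 := hloc T (EN T xS ω q r k) (OD T (EN T xS ω q r k) (z ω) D N)
        (cp_Eti hω) (fun f hf => hf.1) (OD_finite _ _ _ _ _)
        (labOf T (EN T xS ω q r k) (v1N T xS q r k ω) (z ω) D) 0 _ U₀
        (UL_spec T (EN T xS ω q r k) (v1N T xS q r k ω) (z ω) D N 0) (x ω) (2 * κ') _ ⟨w, hwO⟩ hup'
        hM hU₀
      have c1 := hloc T (EN T xS ω q r k) (OD T (EN T xS ω q r k) (z ω) D N)
        (cp_Eti hω) (fun f hf => hf.1) (OD_finite _ _ _ _ _)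
        (labOf T (EN T xS ω q r k) (v1N T xS q r k ω) (z ω) D) 1 _ U₁
        (UL_spec T (EN T xS ω q r k) (v1N T xS q r k ω) (z ω) D N 1) (x ω) (2 * κ') _ ⟨w, hwO⟩ hup'
        hM hU₁
      constructor <;> linarith

/-- windows -/
theorem exists_win {κ t : ℕ} (h1 : κ ≤ t) (h2 : t ≤ 2 * κ) :
    ∃ i < 10, κ + i * κ / 10 ≤ t ∧ t ≤ κ + (i + 1) * κ / 10 := by
  have key : ∀ n, t ≤ κ + (n + 1) * κ / 10 → ∃ i ≤ n, κ + i * κ / 10 ≤ t ∧
      t ≤ κ + (i + 1) * κ / 10 := by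
    intro n
    induction n with
    | zero => exact fun h => ⟨0, le_rfl, by simpa using h1, h⟩
    | succ n ih =>
      intro h
      by_cases hc : t ≤ κ + (n + 1) * κ / 10
      · obtain ⟨i, hi, h3⟩ := ih hc
        exact ⟨i, by omega, h3⟩
      · exact ⟨n + 1, le_rfl, by omega, h⟩
  obtain ⟨i, hi, h3⟩ := key 9 (by omega)
  exact ⟨i, by omega, h3⟩

/-- **the inner glue** -/
theorem opf_of2 (h : OP1Q 2) : OPF := by
  classical
  intro c δ d θ a1 hc hδ hd hθ ha1 _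
  obtain ⟨b, hb, C, hC, R0, hR0⟩ := inner_one h c δ d θ a1 hc hδ hd hθ ha1
  refine ⟨min δ θ, lt_min hδ hθ, b, hb, 10 * C, by positivity, R0, ?_⟩
  intro R hR T hfit xS q r r1 r2 k hcr hrR hx hr2 hr1 D N s κ hN hD hsN hκ hκs S z x hS hz hxm hyp
  obtain ⟨w, hw⟩ : ∃ w : ℕ → ℕ, w = fun i => κ + i * κ / 10 := ⟨_, rfl⟩
  obtain ⟨S', hS'⟩ : ∃ S' : ℕ → Conf → Prop, S' = fun i ω => S ω ∧
      (w i ≤ dF (OE T (EN T xS ω q r k)) (x ω) ∧
        dF (OE T (EN T xS ω q r k)) (x ω) ≤ w (i + 1)) := ⟨_, rfl⟩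
  have hone : ∀ i ∈ Finset.range 10, Pr T.V (fun ω => S' i ω ∧ Vis T xS ω q r k (z ω) D) ≤
      C * ((R : ℝ) ^ (-b) + ((κ : ℝ) / R) ^ b) := by
    intro i hi
    rw [Finset.mem_range] at hi
    have w1 : w (i + 1) ≤ w i + κ / 10 + 1 := by
      rw [hw]
      simp only
      have : (i + 1) * κ = i * κ + κ := by ring
      rw [this]
      generalize i * κ = a
      omega
    have w2 : w (i + 1) ≤ 2 * κ := by
      rw [hw]
      simp only
      have : (i + 1) * κ ≤ 10 * κ := Nat.mul_le_mul_right _ (by omega)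
      omega
    have w3 : κ ≤ w i := by rw [hw]; simp
    have w4 : κ ≤ w (i + 1) := by rw [hw]; simp
    have hSi : NT905.At (NT905.tE T.V xS q r k) (S' i) := by
      rw [hS']
      exact hS.comp₂ (fun a b => a ∧ b) (at_EN.comp₂ (fun E p => w i ≤ dF (OE T E) p ∧
        dF (OE T E) p ≤ w (i + 1)) hxm)
    refine hR0 R hR T hfit xS q r r1 r2 k hcr hrR hx hr2 hr1 D N s κ ((w (i + 1) + 1) / 2) hN hD hsN
      hκ hκs (by omega) (by omega) (S' i) z x hSi hz hxm ?_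
    intro ω hω hSω
    rw [hS'] at hSω
    obtain ⟨h1, h2, h3⟩ := hSω
    exact ⟨hyp ω hω h1, by omega, by omega⟩
  calc Pr T.V (fun ω => S ω ∧ Vis T xS ω q r k (z ω) D) ≤
        Pr T.V (fun ω => ∃ i ∈ Finset.range 10, S' i ω ∧ Vis T xS ω q r k (z ω) D) := by
        apply E.Pr_mono
        rintro ω hω ⟨h1, h2⟩
        have H := hyp ω hω h1
        obtain ⟨i, hi, h3, h4⟩ := exists_win H.bal.2.2.2.2.2 H.up
        refine ⟨i, Finset.mem_range.2 hi, ?_, h2⟩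
        rw [hS', hw]
        exact ⟨h1, h3, h4⟩
    _ ≤ ((Finset.range 10).card : ℝ) * (C * ((R : ℝ) ^ (-b) + ((κ : ℝ) / R) ^ b)) :=
        E.Pr_exists_le_card T.V _ _ hone
    _ = 10 * C * ((R : ℝ) ^ (-b) + ((κ : ℝ) / R) ^ b) := by
        rw [Finset.card_range]
        push_cast
        ring

end Vale.Agent.P155.NT924
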