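import Vale.Agent.P155.NT924.Inner2
import Vale.Agent.P155.NT733.OPMain
import Vale.Agent.P155.NT814.US.Opx

/-!
# P155, NT, US: the one-point estimate `OPX` from the visit bound
-/

namespace Vale.Agent.P155.NT924

/-- `OP1P` is `OP1Q 2` -/
theorem op1Q_of (h : NT733.OP1P) : OP1Q 2 := h

theorem opx_of_op1 (h : NT733.OP1P) : NT814.US.OPX :=
  NT814.US.opx_of_opf (opf_of2 (op1Q_of h))

/-- **`OPX` from the visit bound** -/
theorem opx_of_vbp2 (h : NT34.VBP2) : NT814.US.OPX := opx_of_op1 (NT733.op1 h)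

end Vale.Agent.P155.NT924
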