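import Vale.Agent.P155.NT924.ThinDet
import Vale.Agent.P155.NT862.Strand
import Vale.Agent.P155.B1b.PlaneMain

/-!
# P155, NT, US (BM): probability of the thin rings
-/

namespace Vale.Agent.P155.NT924

open Finset Relation SW HT T905 T802 G45 NT905 NT733 NT862 Skel
open NT802 (Conn)

/-- every ring of radius in `(s, 2 s]` has a point with two strands near it -/
def Thin (V : Finset Pt) (ω : Conf) (z : Pt) (s ρ k : ℕ) : Prop :=
  ∀ s', s < s' → s' ≤ 2 * s → ∃ x, dn z x = s' ∧ TwoStr V (box x ρ) ω x k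

/-- the radial weight -/
noncomputable def rw' (s : ℕ) (x : ℕ → Pt) (y : Pt) : ℝ :=
  (((Finset.Ioc s (2 * s)).filter (fun s' => x s' = y)).card : ℝ) / s

theorem sum_rw' (s : ℕ) (x : ℕ → Pt) (B : Finset Pt) :
    ∑ y ∈ B, rw' s x y = (((Finset.Ioc s (2 * s)).filter (fun s' => x s' ∈ B)).card : ℝ) / s := by
  unfold rw'
  rw [← Finset.sum_div]
  congr 1
  have h := Finset.card_eq_sum_card_fiberwise (f := x) (t := B)
    (s := (Finset.Ioc s (2 * s)).filter (fun s' => x s' ∈ B)) (by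
      intro a ha
      exact (Finset.mem_filter.1 ha).2)
  rw [h]
  push_cast
  refine Finset.sum_congr rfl fun y hy => ?_
  congr 2
  ext a
  simp only [Finset.mem_filter]
  constructor
  · rintro ⟨h1, h2⟩
    exact ⟨⟨h1, by rw [h2]; exact hy⟩, h2⟩
  · rintro ⟨⟨h1, _⟩, h2⟩
    exact ⟨h1, h2⟩

theorem radial {s : ℕ} (hs : 1 ≤ s) {z : Pt} {x : ℕ → Pt}
    (hx : ∀ s', s < s' → s' ≤ 2 * s → dn z (x s') = s') {r0 : ℝ} (hr0 : 1 ≤ r0) :
    LocMass (rw' s x) 6 1 (2 * s) r0 := by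
  have hs0 : (0 : ℝ) < s := by exact_mod_cast hs
  refine ⟨fun y => div_nonneg (Nat.cast_nonneg _) hs0.le, ?_⟩
  intro y r hr _
  have hr1 : (1 : ℝ) ≤ r := hr0.trans hr
  rw [sum_rw', Real.rpow_one]
  have hcard : ((Finset.Ioc s (2 * s)).filter (fun s' => x s' ∈ box y r)).card ≤ 2 * r + 1 := by
    have hsub : (Finset.Ioc s (2 * s)).filter (fun s' => x s' ∈ box y r) ⊆
        Finset.Icc (dn z y - r) (dn z y + r) := by
      intro a ha
      rw [Finset.mem_filter, Finset.mem_Ioc] at ha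
      obtain ⟨⟨h1, h2⟩, h3⟩ := ha
      have h4 := hx a h1 h2
      rw [mem_box_dn905] at h3
      have h5 := H904.dn_tri z y (x a)
      have h6 := H904.dn_tri z (x a) y
      rw [G45.dn_comm (x a) y] at h6
      rw [Finset.mem_Icc]
      omega
    refine (Finset.card_le_card hsub).trans ?_
    rw [Nat.card_Icc]
    omega
  have h1 : (((Finset.Ioc s (2 * s)).filter (fun s' => x s' ∈ box y r)).card : ℝ) ≤ 3 * r := by
    have : (((Finset.Ioc s (2 * s)).filter (fun s' => x s' ∈ box y r)).card : ℝ) ≤ 2 * r + 1 := by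
      exact_mod_cast hcard
    linarith
  push_cast
  rw [div_le_iff₀ hs0]
  calc _ ≤ 3 * (r : ℝ) := h1
    _ = 6 * ((r : ℝ) / (2 * s)) * s := by
      field_simp
      norm_num

open Classical in
/-- a thin ring system is a bad weight -/
theorem thin_bad {V : Finset Pt} {ω : Conf} {z : Pt} {s ρ k : ℕ} (hs : 1 ≤ s)
    (h : Thin V ω z s ρ k) {P : Pt → Prop} (hP : ∀ x, dn z x ≤ 2 * s → P x) {r0 : ℝ}
    (hr0 : 1 ≤ r0) : ∃ w : Pt → ℝ, LocMass w 6 1 (2 * s) r0 ∧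
      ∑ x ∈ (box z (2 * s)).filter (fun x => P x ∧ TwoStr V (box x ρ) ω x k), w x = 1 := by
  have hs0 : (0 : ℝ) < s := by exact_mod_cast hs
  choose! x hx1 hx2 using h
  refine ⟨rw' s x, radial hs hx1 hr0, ?_⟩
  rw [sum_rw']
  have : (Finset.Ioc s (2 * s)).filter (fun s' => x s' ∈ (box z (2 * s)).filter
      (fun x => P x ∧ TwoStr V (box x ρ) ω x k)) = Finset.Ioc s (2 * s) := by
    rw [Finset.filter_eq_self]
    intro a ha
    rw [Finset.mem_Ioc] at ha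
    have h1 := hx1 a ha.1 ha.2
    rw [Finset.mem_filter, mem_box_dn905]
    exact ⟨by omega, hP _ (by omega), hx2 a ha.1 ha.2⟩
  rw [this, Nat.card_Ioc]
  have : 2 * s - s = s := by omega
  rw [this, div_self hs0.ne']

open Classical in
/-- **thin rings are improbable** -/
theorem thin_prob {p θ σ : ℝ} (hp : 0 < p) (hθ : 0 < θ) (hσ : 0 < σ) (hσθ : 4 * σ ≤ θ)
    (hσ1 : 2 * σ ≤ 1) : ∃ C : ℝ, 0 < C ∧ ∃ R0 : ℕ, ∀ R : ℕ, R0 ≤ R → ∀ T : Temp, Fits T R →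
    ∀ ρ k : ℕ, ρ = ⌈(R : ℝ) ^ (1 - 1 / 1024 : ℝ)⌉₊ →
    (k : ℝ) ≤ ((2 * ⌊σ * R⌋₊ : ℕ) : ℝ) ^ (1 / 512 : ℝ) →
    Pr T.V (fun ω => ∃ z : Pt, (∀ f ∉ T.faceSet, θ * R ≤ dn f z) ∧
      Thin T.V ω z ⌊σ * R⌋₊ ρ k) ≤ C * (R : ℝ) ^ (-p) := by
  obtain ⟨A, hA⟩ := B1b.B_plane
  obtain ⟨C, hC, hcw⟩ := cw_final hA (β := 1) (p := p + 2) (a0 := 1 / 2) one_pos le_rfl
    (by linarith) (by norm_num)
  -- eventual inequalities
  have hev : ∀ᶠ R : ℝ in Filter.atTop, 1 ≤ R ∧ 2 ≤ σ * R ∧ R ^ (1 / 2 : ℝ) ≤ σ * R ∧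
      6 * C < (σ * R) ^ (1 / 128 : ℝ) ∧ C * (2 * R ^ (1 - 1 / 1024 : ℝ)) ≤ θ / 2 * R := by
    have t1 : Filter.Tendsto (fun R : ℝ => σ * R) Filter.atTop Filter.atTop :=
      Filter.tendsto_id.const_mul_atTop hσ
    have t2 : Filter.Tendsto (fun R : ℝ => (σ * R) ^ (1 / 128 : ℝ)) Filter.atTop Filter.atTop :=
      (tendsto_rpow_atTop (by norm_num)).comp t1
    have t3 : Filter.Tendsto (fun R : ℝ => σ * R ^ (1 / 2 : ℝ)) Filter.atTop Filter.atTop :=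
      (tendsto_rpow_atTop (by norm_num)).const_mul_atTop hσ
    have t4 : Filter.Tendsto (fun R : ℝ => θ / 2 * R ^ (1 / 1024 : ℝ)) Filter.atTop Filter.atTop :=
      (tendsto_rpow_atTop (by norm_num)).const_mul_atTop (by positivity)
    filter_upwards [Filter.eventually_ge_atTop 1, t1.eventually_ge_atTop 2,
      t2.eventually_gt_atTop (6 * C), t3.eventually_ge_atTop 1,
      t4.eventually_ge_atTop (C * 2)] with R a1 a2 a3 a4 a5
    have hR0 : (0 : ℝ) < R := by linarith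
    refine ⟨a1, a2, ?_, a3, ?_⟩
    · have h1 : (0 : ℝ) < R ^ (1 / 2 : ℝ) := Real.rpow_pos_of_pos hR0 _
      have h2 : R = R ^ (1 / 2 : ℝ) * R ^ (1 / 2 : ℝ) := by
        rw [← Real.rpow_add hR0]; norm_num
      calc R ^ (1 / 2 : ℝ) = 1 * R ^ (1 / 2 : ℝ) := (one_mul _).symm
        _ ≤ σ * R ^ (1 / 2 : ℝ) * R ^ (1 / 2 : ℝ) := mul_le_mul_of_nonneg_right a4 h1.le
        _ = σ * R := by rw [mul_assoc, ← h2]
    · have h1 : (0 : ℝ) < R ^ (1 - 1 / 1024 : ℝ) := Real.rpow_pos_of_pos hR0 _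
      have h2 : R = R ^ (1 / 1024 : ℝ) * R ^ (1 - 1 / 1024 : ℝ) := by
        rw [← Real.rpow_add hR0]; norm_num
      calc C * (2 * R ^ (1 - 1 / 1024 : ℝ)) = C * 2 * R ^ (1 - 1 / 1024 : ℝ) := by ring
        _ ≤ θ / 2 * R ^ (1 / 1024 : ℝ) * R ^ (1 - 1 / 1024 : ℝ) :=
            mul_le_mul_of_nonneg_right a5 h1.le
        _ = θ / 2 * R := by rw [mul_assoc, ← h2]
  obtain ⟨R0, hR0⟩ := (Filter.eventually_atTop.1 hev)
  refine ⟨9 * C, by positivity, ⌈R0⌉₊ + 1, ?_⟩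
  intro R hR T hfit ρ k hρ hk
  have hRR : R0 ≤ (R : ℝ) := (Nat.le_ceil R0).trans (by exact_mod_cast (by omega : ⌈R0⌉₊ ≤ R))
  obtain ⟨e1, e2, e3, e4, e5⟩ := hR0 R hRR
  obtain ⟨s, hs⟩ : ∃ s, s = ⌊σ * R⌋₊ := ⟨_, rfl⟩
  rw [← hs] at hk ⊢
  have hRpos : (0 : ℝ) < R := by linarith
  have s1 : σ * R < s + 1 := by rw [hs]; exact Nat.lt_floor_add_one _
  have s2 : (s : ℝ) ≤ σ * R := by rw [hs]; exact Nat.floor_le (by positivity)
  have s3 : 1 ≤ s := by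
    have : (0 : ℝ) < s := by linarith
    exact_mod_cast this
  have s4 : σ * R ≤ ((2 * s : ℕ) : ℝ) := by
    push_cast
    linarith
  have s5 : 2 * s ≤ R := by
    have : (2 * s : ℝ) ≤ R := by nlinarith
    exact_mod_cast this
  have s6 : (1 : ℝ) ≤ ((2 * s : ℕ) : ℝ) := by
    have : 1 ≤ 2 * s := by omega
    exact_mod_cast this
  have hR1 : 1 ≤ R := by exact_mod_cast e1
  -- the radius
  have hρ1 : (((2 * s : ℕ) : ℝ)) ^ (1 - (1 : ℝ) ^ 2 / 1024 : ℝ) ≤ ρ := by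
    rw [hρ, one_pow]
    refine le_trans ?_ (Nat.le_ceil _)
    apply Real.rpow_le_rpow (by linarith) _ (by norm_num)
    exact_mod_cast s5
  have hρ2 : (ρ : ℝ) ≤ 2 * (R : ℝ) ^ (1 - 1 / 1024 : ℝ) := by
    have h1 : (ρ : ℝ) < (R : ℝ) ^ (1 - 1 / 1024 : ℝ) + 1 := by
      rw [hρ]; exact Nat.ceil_lt_add_one (by positivity)
    have h2 : (1 : ℝ) ≤ (R : ℝ) ^ (1 - 1 / 1024 : ℝ) := Real.one_le_rpow e1 (by norm_num)
    linarith
  have hn : (R : ℝ) ^ (1 / 2 : ℝ) ≤ ((2 * s : ℕ) : ℝ) := e3.trans s4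
  have hr0 : (1 : ℝ) ≤ ((2 * s : ℕ) : ℝ) ^ (1 / 512 : ℝ) := Real.one_le_rpow s6 (by norm_num)
  have hlt : C * (6 * ((2 * s : ℕ) : ℝ) ^ (-((1 : ℝ) ^ 2 / 128))) < 1 := by
    have h1 : (σ * R) ^ (1 / 128 : ℝ) ≤ ((2 * s : ℕ) : ℝ) ^ (1 / 128 : ℝ) :=
      Real.rpow_le_rpow (by positivity) s4 (by norm_num)
    have h2 : (0 : ℝ) < ((2 * s : ℕ) : ℝ) ^ (1 / 128 : ℝ) := Real.rpow_pos_of_pos (by linarith) _
    rw [one_pow, Real.rpow_neg (by linarith), ← mul_assoc, ← div_eq_mul_inv, div_lt_one h2]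
    linarith
  -- the centres
  have hcov : ∀ ω ∈ DD T.V, (∃ z : Pt, (∀ f ∉ T.faceSet, θ * R ≤ dn f z) ∧
      Thin T.V ω z s ρ k) → ∃ z ∈ (box (0, 0) R).filter (fun z => ∀ f ∉ T.faceSet,
        θ * R ≤ dn f z), Thin T.V ω z s ρ k := by
    rintro ω _ ⟨z, h1, h2⟩
    refine ⟨z, ?_, h2⟩
    rw [Finset.mem_filter]
    refine ⟨?_, h1⟩
    have h3 : z ∈ T.faceSet := by
      by_contra h3
      have h4 := h1 z h3
      rw [G45.dn_self] at h4
      have : 0 < θ * R := by positivity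
      push_cast at h4
      linarith
    exact_mod_cast hfit h3
  refine (E.Pr_mono hcov).trans ?_
  refine (E.Pr_exists_le_card T.V _ _ (b := C * (R : ℝ) ^ (-(p + 2))) ?_).trans ?_
  · intro z hz
    rw [Finset.mem_filter] at hz
    refine le_trans (E.Pr_mono ?_) (hcw R T hR1 hfit z (2 * s) ρ k hn s5 hρ1 hk)
    intro ω _ hth
    have hP : ∀ x, dn z x ≤ 2 * s → C * (ρ : ℝ) ≤ dF T.faceSet x := by
      intro x hx
      obtain ⟨f, hf, hfd⟩ := G45.exists_dF (G45.exists_notMem T.faceSet_finite) x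
      rw [← hfd]
      have h1 := hz.2 f hf
      have h2 := G45.dn_tri f x z
      have h3 : (dn f z : ℝ) ≤ dn f x + dn x z := by exact_mod_cast h2
      have h4 : (dn x z : ℝ) ≤ 2 * s := by
        rw [G45.dn_comm]
        exact_mod_cast hx
      rw [G45.dn_comm x f]
      have h5 : C * (ρ : ℝ) ≤ C * (2 * (R : ℝ) ^ (1 - 1 / 1024 : ℝ)) :=
        mul_le_mul_of_nonneg_left hρ2 hC.le
      nlinarith
    obtain ⟨w, hw1, hw2⟩ := thin_bad s3 hth (P := fun x => C * (ρ : ℝ) ≤ dF T.faceSet x) hP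
      (r0 := ((2 * s : ℕ) : ℝ) ^ (1 / 512 : ℝ)) hr0
    refine ⟨w, 6, hw1, ?_⟩
    convert hlt using 1
  · have h1 : (((box (0, 0) R).filter (fun z => ∀ f ∉ T.faceSet, θ * R ≤ dn f z)).card : ℝ) ≤
        9 * (R : ℝ) ^ (2 : ℝ) := by
      have h2 : ((box (0, 0) R).filter (fun z => ∀ f ∉ T.faceSet, θ * R ≤ dn f z)).card ≤
          (2 * R + 1) ^ 2 := (Finset.card_filter_le _ _).trans (G45.card_box _ _).le
      have h3 : (((box (0, 0) R).filter (fun z => ∀ f ∉ T.faceSet, θ * R ≤ dn f z)).card : ℝ) ≤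
          (2 * R + 1) ^ 2 := by exact_mod_cast h2
      rw [Real.rpow_two]
      nlinarith
    calc _ ≤ 9 * (R : ℝ) ^ (2 : ℝ) * (C * (R : ℝ) ^ (-(p + 2))) :=
          mul_le_mul_of_nonneg_right h1 (by positivity)
      _ = 9 * C * ((R : ℝ) ^ (2 : ℝ) * (R : ℝ) ^ (-(p + 2))) := by ring
      _ = 9 * C * (R : ℝ) ^ (-p) := by
          rw [← Real.rpow_add hRpos]
          congr 2
          ring

end Vale.Agent.P155.NT924
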