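import Vale.Agent.P155.NT924.Half
import Vale.Agent.P155.NT862.Bal2
import Vale.Agent.P155.NT862.Mic
import Vale.Agent.P155.F.CwFinal

/-!
# P155, NT, US (BM): a balanced face at mesoscopic distance from the wall, or two strands near a
point of every ring
-/

namespace Vale.Agent.P155.NT924

open Finset Relation SW HT T905 T802 G45 NT905 NT733 NT862
open NT802 (Conn)

/-- two old faces `y, y'` of different labels, joined by face steps off the wall inside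
`box x ρ`: their wall corners are not joined by the wall inside `box x ρ` -/
theorem not_LS {T : Temp} {E : Set Pt} {v₁ z x : Pt} {D ρ : ℕ} {π : Pt → ZMod 2}
    (hπ : Lab T E v₁ z D π) (hz : ρ + 2 + D < dn x z) (hv : ρ + 1 < dn x v₁) {w w' : Pt}
    (hwalk : ReflTransGen (FS T E x ρ) w w') (hne : π w ≠ π w') {q q' : Pt} (hq : q ∈ corners w)
    (hqS : q ∈ SS T E) (hqd : dn x q ≤ ρ) (hq' : q' ∈ corners w') :
    ¬ ReflTransGen (LS T E x ρ) q q' :=
  fun h => hne (mic hπ hz hv hwalk hq hqS hqd hq' h)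

theorem fs_symm {T : Temp} {E : Set Pt} {x : Pt} {ρ : ℕ} {g g' : Pt} (h : FS T E x ρ g g') :
    FS T E x ρ g' g :=
  ⟨mem_nbrs.2 (NT34.adjS (mem_nbrs.1 h.1)), fun u h1 h2 => h.2.1 u h2 h1, h.2.2.2, h.2.2.1⟩

theorem fs_symm' {T : Temp} {E : Set Pt} {x : Pt} {ρ : ℕ} {g g' : Pt}
    (h : ReflTransGen (FS T E x ρ) g g') : ReflTransGen (FS T E x ρ) g' g := by
  induction h with
  | refl => exact ReflTransGen.refl
  | tail _ h2 ih => exact ReflTransGen.head (fs_symm h2) ih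

/-- **(BM), deterministic part** -/
theorem bm_det : ∃ K : ℕ, 4 ≤ K ∧ ∀ {T : Temp} {E : Set Pt}, CPr (OE T E) →
    ∀ {V : Finset Pt} {ω : Conf} {v₁ z : Pt} {D s m ρ N : ℕ},
    (∀ x, s < dn z x → dn z x ≤ 2 * s → ∀ q q', q ∈ SS T E → q' ∈ SS T E →
      dn x q ≤ K * (m + 1) + 2 → dn x q' ≤ K * (m + 1) + 2 →
      ¬ ReflTransGen (LS T E x ρ) q q' → TwoStr V (box x ρ) ω x (K * (m + 1) + 2)) →
    z ∉ SS T E → (∃ p, p ∉ OE T E ∧ dn z p ≤ D + 1) →
    ∀ {π : Pt → ZMod 2}, Lab T E v₁ z D π → ∀ {O' : Set Pt}, (∀ f ∈ O', f ∈ OE T E) →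
    O'.Finite → (∀ f ∈ OE T E, D + 1 < dn z f → dn z f ≤ N → f ∈ O') →
    ∀ {U₀ U₁ : Pt → ℝ}, IsPot O' (bdl T E π 0) U₀ → IsPot O' (bdl T E π 1) U₁ →
    K * (D + 1) ≤ s → K * (2 * s + 1) ≤ N → K * (m + 1) + 2 ≤ ρ → ρ + 2 + D < s →
    2 * s + ρ + 1 < dn z v₁ →
    (∃ x, s < dn z x ∧ dn z x ≤ 2 * s ∧ x ∈ OE T E ∧
      (∀ u ∈ corners x, u ∈ FB T E z (dn z x + 1)) ∧ 1 / 16 ≤ U₀ x ∧ 1 / 16 ≤ U₁ x ∧
      ∀ p, p ∉ OE T E → m < dn p x) ∨
    ∀ s', s < s' → s' ≤ 2 * s → ∃ x, dn z x = s' ∧ TwoStr V (box x ρ) ω x (K * (m + 1) + 2) := by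
  obtain ⟨K1, h11, hreach⟩ := reach (c0 := 1 / 16) (by norm_num)
  obtain ⟨K2, h21, hhalf⟩ := half
  obtain ⟨K, hKd⟩ : ∃ K, K = max (max K1 K2) 4 := ⟨_, rfl⟩
  refine ⟨K, by omega, ?_⟩
  intro T E hCP V ω v₁ z D s m ρ N htwo hzS hp π hπ O' hOO hfin hbig U₀ U₁ hU₀ hU₁ hsD hsN
    hmρ hρs hsv
  have k1 : K1 ≤ K := by omega
  have k2 : K2 ≤ K := by omega
  have k4 : 4 ≤ K := by omega
  have g2 : K2 * (D + 1) ≤ s := (Nat.mul_le_mul_right _ k2).trans hsD
  have g3 : K2 * (2 * s + 1) ≤ N := (Nat.mul_le_mul_right _ k2).trans hsN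
  have g1 : K1 * (m + 1) ≤ K * (m + 1) := Nat.mul_le_mul_right _ k1
  have g5 : 4 * (D + 1) ≤ s := (Nat.mul_le_mul_right _ k4).trans hsD
  have g6 : 4 * (2 * s + 1) ≤ N := (Nat.mul_le_mul_right _ k4).trans hsN
  obtain ⟨p, hpO, hzp⟩ := hp
  by_contra hcon
  rw [not_or] at hcon
  obtain ⟨hno, hnt⟩ := hcon
  apply hnt
  intro s' hs1 hs2
  -- the balanced face, or the channel
  have hsum : ∀ f, dn z f = s' → f ∈ OE T E → 1 / 2 ≤ U₀ f + U₁ f := by
    intro f hf _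
    refine hhalf hCP hpO hzp hOO hfin hbig hU₀ hU₁ f ?_ ?_
    · rw [hf]; omega
    · rw [hf]
      have : K2 * (s' + 1) ≤ K2 * (2 * s + 1) := Nat.mul_le_mul_left _ (by omega)
      omega
  have hring : ∀ f, dn z f = s' → f ∈ OE T E → f ∈ O' := by
    intro f hf hfO
    exact hbig f hfO (by omega) (by omega)
  have dxv : ∀ x, dn z x = s' → ρ + 1 < dn x v₁ := by
    intro x hx
    have := H904.dn_tri z x v₁
    omega
  have dxz : ∀ x, dn z x = s' → ρ + 2 + D < dn x z := by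
    intro x hx
    rw [G45.dn_comm]
    omega
  rcases bal2 (O' := O') hπ hzS (by omega) (by omega) hOO hfin (fun f h1 h2 _ => hring f h1 h2)
    hU₀ hU₁ (fun f h1 h2 _ => hsum f h1 h2) with
    ⟨x, hx, hxO, hxB, u0, u1⟩ | ⟨x, x', hx, _, hxx, hxO, hxO', hne, hfree⟩
  · -- thin balanced face
    refine ⟨x, hx, ?_⟩
    have hthin : ∃ p', p' ∉ OE T E ∧ dn p' x ≤ m := by
      by_contra hc
      push Not at hc
      refine hno ⟨x, by omega, by omega, hxO, ?_, u0, u1, hc⟩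
      rw [hx]
      exact hxB
    obtain ⟨p', hp', hpm⟩ := hthin
    have hxO' := hring x hx hxO
    have hb0 : ∀ (c : ZMod 2) (U : Pt → ℝ), IsPot O' (bdl T E π c) U → ∀ y, 0 ≤ U y ∧ U y ≤ 1 :=
      fun c U hU y => ⟨hU.nonneg hfin (bdl_nonneg π c) y, hU.le_one hfin (bdl_le_one π c) y⟩
    have hbd : ∀ (c : ZMod 2) (U : Pt → ℝ), IsPot O' (bdl T E π c) U → ∀ y, y ∉ O' → U y ≠ 0 →
        y ∉ OE T E ∧ π y = c := by
      intro c U hU y hy hne
      rw [hU.2 y hy] at hne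
      unfold bdl at hne
      by_contra hcon
      exact hne (if_neg hcon)
    -- walk to an old face
    have key : ∀ (c : ZMod 2) (U : Pt → ℝ), IsPot O' (bdl T E π c) U → 1 / 16 ≤ U x →
        ∃ y q, ReflTransGen (FS T E x ρ) x y ∧ y ∉ OE T E ∧ π y = c ∧ q ∈ corners y ∧
          q ∈ SS T E ∧ dn x q ≤ K * (m + 1) + 2 := by
      intro c U hU hu
      obtain ⟨y0, r0, y, a0, n0, w0⟩ := hreach (OE T E) O' hCP hOO U (hb0 c U hU) hU.1 p' x m hp'
        hpm hxO' hu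
      obtain ⟨o0, l0⟩ := hbd c U hU y n0 w0
      obtain ⟨q, hq1, hq2⟩ := exists_corner o0
      -- the free part
      have hfr : ∀ g, ReflTransGen (fun a b => Adj a b ∧ b ∈ O' ∧ dn x b ≤ K1 * (m + 1)) x g →
          g ∈ OE T E ∧ dn x g ≤ K1 * (m + 1) ∧ ReflTransGen (FS T E x ρ) x g := by
        intro g hg
        induction hg with
        | refl => exact ⟨hxO, by rw [G45.dn_self]; exact Nat.zero_le _, ReflTransGen.refl⟩
        | tail g3 g4 ih =>
          rename_i b c'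
          obtain ⟨i1, i2, i3⟩ := ih
          refine ⟨hOO _ g4.2.1, g4.2.2, i3.tail ⟨mem_nbrs.2 g4.1, ?_, by omega, ?_⟩⟩
          · exact fun u h1 _ => corner_free i1 h1
          · have := g4.2.2
            omega
      obtain ⟨f1, f2, f3⟩ := hfr y0 r0
      have d1 : dn x y ≤ K1 * (m + 1) + 1 := by
        have e1 := H904.dn_tri x y0 y
        have e2 := dn_adj905 a0
        omega
      refine ⟨y, q, f3.tail ⟨mem_nbrs.2 a0, fun u h1 _ => corner_free f1 h1, by omega, by omega⟩,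
        o0, l0, hq1, hq2, ?_⟩
      have e1 := H904.dn_tri x y q
      have e2 := corner_dn hq1
      omega
    obtain ⟨y, q, w1, _, l1, q1, q2, q3⟩ := key 0 U₀ hU₀ u0
    obtain ⟨y', q', w1', _, l1', q1', q2', q3'⟩ := key 1 U₁ hU₁ u1
    refine htwo x (by omega) (by omega) q q' q2 q2' q3 q3' ?_
    refine not_LS hπ (dxz x hx) (dxv x hx) ((fs_symm' w1).trans w1') ?_ q1 q2 (by omega) q1'
    rw [l1, l1']
    decide
  · -- channel
    refine ⟨x, hx, ?_⟩
    obtain ⟨q, hq1, hq2⟩ := exists_corner hxO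
    obtain ⟨q', hq1', hq2'⟩ := exists_corner hxO'
    have d1 : dn x x' ≤ 1 := dn_adj905 (mem_nbrs.1 hxx)
    have d2 := corner_dn hq1
    have d3 : dn x q' ≤ 2 := by
      have e1 := H904.dn_tri x x' q'
      have e2 := corner_dn hq1'
      omega
    have hstep : FS T E x ρ x x' := by
      refine ⟨hxx, ?_, by rw [G45.dn_self]; exact Nat.zero_le _, by omega⟩
      intro u h1 h2
      have := FB.free hzS (hfree u h1 h2)
      exact this.1
    refine htwo x (by omega) (by omega) q q' hq2 hq2' (by omega) (by omega) ?_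
    exact not_LS hπ (dxz x hx) (dxv x hx) (ReflTransGen.single hstep) hne hq1 hq2 (by omega) hq1'

end Vale.Agent.P155.NT924
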