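import Vale.Agent.P155.NT924.XD1
import Vale.Agent.P155.NO801.Def

/-!
# P155, (X): blocks (A) and (D1) in the literal form of `NO801.Def`
-/

namespace Vale.Agent.P155.NT924

open MeasureTheory Filter Topology TopologicalSpace Vale.Agent.P155

theorem pt_eq_pos (δ : ℝ) (a : ℂ) (v : Pt) : Q1.pt δ a v = K.pos δ a v := by
  apply Complex.ext
  · simp [Q1.pt, K.pos]
  · simp [Q1.pt, K.pos]

/-- **(A)** -/
theorem ax : NO801.AX := by
  intro Ω _ hb _ S hS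
  obtain ⟨z, ρ, hρ, A0, hA0, hz, hfr⟩ := not_outer_disc hb S hS
  set κ : ℝ := min (1 / 8) (ρ / (8 * (A0 + 1))) with hκ
  have hκ0 : 0 < κ := by
    rw [hκ]
    positivity
  have hκ1 : κ ≤ 1 / 8 := min_le_left _ _
  have hκ2 : κ * (A0 + 1) ≤ ρ / 8 := by
    have h : κ ≤ ρ / (8 * (A0 + 1)) := min_le_right _ _
    rw [le_div_iff₀ (by positivity)] at h
    linarith
  have hRt : Tendsto (fun n => ⌈A0 / S.norm.δ n⌉₊) atTop atTop := by
    have h1 : Tendsto (fun n => A0 / S.norm.δ n) atTop atTop := by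
      have h2 : Tendsto (fun n => (S.norm.δ n)⁻¹) atTop atTop :=
        tendsto_inv_nhdsGT_zero.comp (tendsto_nhdsWithin_iff.2 ⟨S.norm.mesh,
          Eventually.of_forall (fun n => S.norm.pos n)⟩)
      exact h2.const_mul_atTop hA0
    exact tendsto_nat_ceil_atTop.comp h1
  refine ⟨z, ρ, κ, hρ, hκ0, by linarith, hz,
    fun n => K.cell (S.norm.δ n) (S.norm.a n) z, fun n => ⌊ρ / (4 * S.norm.δ n)⌋₊,
    fun n => ⌈A0 / S.norm.δ n⌉₊, hRt, ?_⟩
  have hδ : ∀ᶠ n in atTop, S.norm.δ n < ρ / 12 :=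
    (tendsto_order.1 S.norm.mesh).2 _ (by positivity)
  refine (hfr.and_eventually hδ).mono ?_
  rintro n ⟨⟨hd1, hball, hface, hbox, hdF, hR⟩, hd2⟩
  have hd := S.norm.pos n
  obtain ⟨hfits, -, hR3, -, -⟩ := hR A0 le_rfl
  have hm1 : S.norm.δ n * (⌊ρ / (4 * S.norm.δ n)⌋₊ : ℝ) ≤ ρ / 4 := by
    have h : (⌊ρ / (4 * S.norm.δ n)⌋₊ : ℝ) ≤ ρ / (4 * S.norm.δ n) := Nat.floor_le (by positivity)
    rw [le_div_iff₀ (by positivity)] at h
    linarith
  have hm2 : ρ / 4 - S.norm.δ n ≤ S.norm.δ n * (⌊ρ / (4 * S.norm.δ n)⌋₊ : ℝ) := by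
    have h : ρ / (4 * S.norm.δ n) < (⌊ρ / (4 * S.norm.δ n)⌋₊ : ℝ) + 1 := Nat.lt_floor_add_one _
    rw [div_lt_iff₀ (by positivity)] at h
    linarith
  refine ⟨hfits, ?_, ?_, ?_, ?_⟩
  · refine le_of_mul_le_mul_left (a := S.norm.δ n) ?_ hd
    calc S.norm.δ n * (κ * (⌈A0 / S.norm.δ n⌉₊ : ℝ)) =
          κ * (S.norm.δ n * (⌈A0 / S.norm.δ n⌉₊ : ℝ)) := by ring
      _ ≤ κ * (A0 + 1) := by gcongr
      _ ≤ S.norm.δ n * (⌊ρ / (4 * S.norm.δ n)⌋₊ : ℝ) := by linarith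
  · have h : ((4 * ⌊ρ / (4 * S.norm.δ n)⌋₊ : ℕ) : ℝ) ≤
        dF (S.norm.T n).faceSet (K.cell (S.norm.δ n) (S.norm.a n) z) := by
      push_cast
      refine le_of_mul_le_mul_left (a := S.norm.δ n) ?_ hd
      linarith
    exact_mod_cast h
  · have : ρ * κ ≤ ρ * (1 / 8) := by gcongr
    linarith
  · intro v hv
    rw [pt_eq_pos]
    have h1 := dist_pos_le hd (S.norm.a n) z v
    have h2 : ((dinf (K.cell (S.norm.δ n) (S.norm.a n) z) v : ℤ) : ℝ) ≤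
        (⌊ρ / (4 * S.norm.δ n)⌋₊ : ℝ) + 2 := by
      have h3 := K.dinf_nonneg (K.cell (S.norm.δ n) (S.norm.a n) z) v
      change (dinf (K.cell (S.norm.δ n) (S.norm.a n) z) v).toNat ≤
        ⌊ρ / (4 * S.norm.δ n)⌋₊ + 2 at hv
      have h4 : dinf (K.cell (S.norm.δ n) (S.norm.a n) z) v ≤
          ((⌊ρ / (4 * S.norm.δ n)⌋₊ + 2 : ℕ) : ℤ) := by omega
      have h5 : ((dinf (K.cell (S.norm.δ n) (S.norm.a n) z) v : ℤ) : ℝ) ≤
          (((⌊ρ / (4 * S.norm.δ n)⌋₊ + 2 : ℕ) : ℤ) : ℝ) := by exact_mod_cast h4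
      push_cast at h5
      exact h5
    have h3 : 2 * S.norm.δ n * ((dinf (K.cell (S.norm.δ n) (S.norm.a n) z) v : ℤ) : ℝ) ≤
        2 * S.norm.δ n * ((⌊ρ / (4 * S.norm.δ n)⌋₊ : ℝ) + 2) := by gcongr
    linarith

/-- **(D1)** -/
theorem d1 : NO801.D1 := by
  intro κ hκ hκ1
  obtain ⟨C0, hC0, c0, hc0, h⟩ := exists_charge 0 (ρ := κ / 4) (A := 1) (by positivity) one_pos
  refine ⟨C0, hC0.le, c0, hc0, ⌈128 / κ⌉₊, ?_⟩
  intro R hR T hfits z m hm hdF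
  have hRκ : 128 ≤ κ * R := by
    have h1 : 128 / κ ≤ (R : ℝ) := (Nat.le_ceil _).trans (by exact_mod_cast hR)
    rw [div_le_iff₀ hκ] at h1
    linarith
  have hR0 : (0 : ℝ) < R := by
    by_contra hn
    have : (R : ℝ) = 0 := le_antisymm (not_lt.1 hn) (Nat.cast_nonneg _)
    rw [this] at hRκ
    norm_num at hRκ
  have hR1 : 1 ≤ R := by
    have : 0 < R := by exact_mod_cast hR0
    omega
  set δ : ℝ := 1 / R with hδ
  have hδ0 : 0 < δ := by positivity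
  have hδR : δ * R = 1 := by
    rw [hδ]
    field_simp
  set a : ℂ := ⟨-(δ * z.1), -(δ * z.2)⟩ with ha
  have hpos : K.pos δ a z = 0 := by
    apply Complex.ext <;> simp [K.pos, ha]
  have hcell : K.cell δ a 0 = z := by
    rw [← hpos, K.cell_pos hδ0]
  have hball : Metric.ball (0 : ℂ) (8 * (κ / 4)) ⊆ region δ a T.faceSet := by
    intro w hw
    rw [Metric.mem_ball] at hw
    refine Set.mem_iUnion₂.2 ⟨K.cell δ a w, ?_, K1.mem_sqr_cell hδ0 a w⟩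
    apply G45.mem_of_lt_dF (x := z)
    have h1 := K.norm_sub_pos_cell hδ0 a w
    have h2 := dinf_cell_le hδ0 a 0 (K.cell δ a w)
    rw [hcell] at h2
    have h3 : dist (K.pos δ a (K.cell δ a w)) 0 ≤ 2 * κ + 2 * δ := by
      rw [dist_zero_right]
      rw [dist_zero_right] at hw
      calc ‖K.pos δ a (K.cell δ a w)‖ = ‖w - (w - K.pos δ a (K.cell δ a w))‖ := by
            congr 1; ring
        _ ≤ ‖w‖ + ‖w - K.pos δ a (K.cell δ a w)‖ := norm_sub_le _ _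
        _ ≤ _ := by linarith
    have h4 : (dinf z (K.cell δ a w) : ℝ) ≤ 2 * (κ * R) + 3 := by
      refine le_of_mul_le_mul_left (a := δ) ?_ hδ0
      calc δ * (dinf z (K.cell δ a w) : ℝ) ≤ 2 * κ + 2 * δ + δ := by linarith
        _ = δ * R * (2 * κ) + 3 * δ := by rw [hδR]; ring
        _ = _ := by ring
    have h5 : (dinf z (K.cell δ a w) : ℝ) < 4 * (m : ℝ) := by linarith
    have h6 : dinf z (K.cell δ a w) < 4 * (m : ℤ) := by exact_mod_cast h5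
    have hm0 : 0 < m := by
      have : (0 : ℝ) < m := by linarith
      exact_mod_cast this
    unfold dn
    omega
  obtain ⟨φ, h1, h2, h3, h4, h5, h6⟩ := h δ a T R hδ0 (by
      rw [hδ, mul_one_div, div_le_iff₀ hR0]
      linarith) hball hfits hR1 (by rw [hδR]) (by rw [hδR]; norm_num)
  refine ⟨φ, h1, fun x hx => h2 x ?_, h3, h6⟩
  rw [hcell]
  intro hx'
  apply hx
  rw [K.mem_box] at hx' ⊢
  have h7 : (⌊κ / 4 / δ⌋₊ : ℝ) ≤ m := by
    have h8 : (⌊κ / 4 / δ⌋₊ : ℝ) ≤ κ / 4 / δ := Nat.floor_le (by positivity)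
    have h9 : κ / 4 / δ = κ * R / 4 := by
      rw [hδ]
      field_simp
    have h10 := h8.trans_eq h9
    linarith
  have h8 : ⌊κ / 4 / δ⌋₊ ≤ m := by exact_mod_cast h7
  omega

end Vale.Agent.P155.NT924
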