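import Vale.Agent.P155.NT924.XA

/-!
# P155, (X), block (D1): the charge far from `Ω` and its energy
-/

namespace Vale.Agent.P155.NT924

open Filter Topology Finset

theorem card_box' (x : Pt) (r : ℕ) : (box x r).card = (2 * r + 1) ^ 2 := by
  unfold box
  rw [Finset.card_product, Int.card_Icc, Int.card_Icc]
  have e1 : (x.1 + r + 1 - (x.1 - r)).toNat = 2 * r + 1 := by omega
  have e2 : (x.2 + r + 1 - (x.2 - r)).toNat = 2 * r + 1 := by omega
  rw [e1, e2]
  ring

/-- energy of a bump -/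
theorem energy_bump_le {R : ℕ} (hR : 1 ≤ R) {C0 : ℝ} {φ : Pt → ℝ}
    (hφ : IsBump (0, 0) R (C0 / (R : ℝ) ^ 2) φ) : energy φ ≤ 50 * C0 ^ 2 / (R : ℝ) ^ 4 := by
  have hR1 : (1 : ℝ) ≤ R := by exact_mod_cast hR
  have hR0 : (0 : ℝ) < R := by linarith
  have h1 : ∀ y : Pt, (φ (y.1 + 1, y.2) - φ y) ^ 2 ≤ (C0 / (R : ℝ) ^ 3) ^ 2 := by
    intro y
    have h := hφ.2 1 0 (by norm_num) y
    simp only [Function.iterate_one, Function.iterate_zero, id_eq, Dx, Nat.add_zero, pow_one] at h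
    rw [← sq_abs]
    refine pow_le_pow_left₀ (abs_nonneg _) (h.trans (le_of_eq ?_)) 2
    field_simp
  have h2 : ∀ y : Pt, (φ (y.1, y.2 + 1) - φ y) ^ 2 ≤ (C0 / (R : ℝ) ^ 3) ^ 2 := by
    intro y
    have h := hφ.2 0 1 (by norm_num) y
    simp only [Function.iterate_one, Function.iterate_zero, id_eq, Dy, Nat.zero_add, pow_one] at h
    rw [← sq_abs]
    refine pow_le_pow_left₀ (abs_nonneg _) (h.trans (le_of_eq ?_)) 2
    field_simp
  have hsupp : Function.support (fun x : Pt => (φ (x.1 + 1, x.2) - φ x) ^ 2 +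
      (φ (x.1, x.2 + 1) - φ x) ^ 2) ⊆ ((box (0, 0) (R + 1) : Finset Pt) : Set Pt) := by
    intro x hx
    by_contra hn
    apply hx
    rw [Finset.mem_coe, K.mem_box] at hn
    have hb : ∀ y : Pt, dinf x y ≤ 1 → φ y = 0 := by
      intro y hy
      refine hφ.1 y ?_
      rw [K.mem_box]
      intro hcon
      apply hn
      obtain ⟨x1, x2⟩ := x
      obtain ⟨y1, y2⟩ := y
      simp only [dinf, Nat.cast_add, Nat.cast_one, sup_le_iff, abs_le] at hy hcon ⊢
      omega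
    have e0 : φ x = 0 := hb x (by simp [dinf])
    have e1 : φ (x.1 + 1, x.2) = 0 := hb _ (by simp [dinf])
    have e2 : φ (x.1, x.2 + 1) = 0 := hb _ (by simp [dinf])
    simp only [e0, e1, e2]
    norm_num
  unfold energy
  rw [finsum_eq_sum_of_support_subset _ hsupp]
  calc ∑ x ∈ box (0, 0) (R + 1), ((φ (x.1 + 1, x.2) - φ x) ^ 2 + (φ (x.1, x.2 + 1) - φ x) ^ 2) ≤
        ∑ _x ∈ box (0, 0) (R + 1), 2 * (C0 / (R : ℝ) ^ 3) ^ 2 :=
        Finset.sum_le_sum (fun x _ => by linarith [h1 x, h2 x])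
    _ = (2 * ((R : ℝ) + 1) + 1) ^ 2 * (2 * (C0 / (R : ℝ) ^ 3) ^ 2) := by
        rw [Finset.sum_const, card_box', nsmul_eq_mul]
        push_cast
        ring
    _ ≤ (5 * (R : ℝ)) ^ 2 * (2 * (C0 / (R : ℝ) ^ 3) ^ 2) := by
        gcongr
        linarith
    _ = 50 * C0 ^ 2 / (R : ℝ) ^ 4 := by
        field_simp
        ring

/-- **Block (D1), abstract form.** -/
theorem pair_ge {C0 c1 : ℝ} (hC0 : 0 < C0) {R : ℕ} (hR : 1 ≤ R) {O : Set Pt}
    (hO : O.Finite) {φ u : Pt → ℝ} (hφ : IsBump (0, 0) R (C0 / (R : ℝ) ^ 2) φ)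
    (hs : ∀ x, x ∉ O → φ x = 0) (h2 : c1 / (R : ℝ) ^ 2 ≤ pair φ φ) (hc1 : 0 ≤ c1)
    (hu : IsGreen O φ u) : c1 ^ 2 / (50 * C0 ^ 2) ≤ pair φ u := by
  have hR1 : (1 : ℝ) ≤ R := by exact_mod_cast hR
  have hR0 : (0 : ℝ) < R := by linarith
  have he := energy_bump_le hR hφ
  set t : ℝ := c1 * (R : ℝ) ^ 2 / (50 * C0 ^ 2) with ht
  have ht0 : 0 ≤ t := by positivity
  have h3 := K.dirichlet hO hu (v := fun x => t * φ x) (fun x hx => by simp [hs x hx])
  have e1 : pair φ (fun x => t * φ x) = t * pair φ φ := by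
    unfold pair
    rw [← K.fsum_mul]
    exact finsum_congr (fun x => by ring)
  have e2 : energy (fun x => t * φ x) = t ^ 2 * energy φ := by
    unfold energy
    rw [← K.fsum_mul]
    exact finsum_congr (fun x => by ring)
  rw [e1, e2] at h3
  have h4 : 2 * (t * (c1 / (R : ℝ) ^ 2)) - t ^ 2 * (50 * C0 ^ 2 / (R : ℝ) ^ 4) =
      c1 ^ 2 / (50 * C0 ^ 2) := by
    rw [ht]
    field_simp
    ring
  have h5 : t * (c1 / (R : ℝ) ^ 2) ≤ t * pair φ φ := mul_le_mul_of_nonneg_left h2 ht0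
  have h6 : t ^ 2 * energy φ ≤ t ^ 2 * (50 * C0 ^ 2 / (R : ℝ) ^ 4) :=
    mul_le_mul_of_nonneg_left he (by positivity)
  linarith

/-! ### the concrete charge -/

/-- the shift by `(s, 0)` -/
def shs (s : ℤ) : Pt ≃ Pt := Equiv.prodCongr (Equiv.addRight s) (Equiv.refl ℤ)

theorem shs_apply (s : ℤ) (x : Pt) : shs s x = (x.1 + s, x.2) := rfl

theorem Dx_shs (s : ℤ) (f : Pt → ℝ) : Dx (fun y => f (shs s y)) = fun y => Dx f (shs s y) := by
  funext y
  simp only [Dx, shs_apply]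
  rw [show y.1 + 1 + s = y.1 + s + 1 by ring]

theorem Dy_shs (s : ℤ) (f : Pt → ℝ) : Dy (fun y => f (shs s y)) = fun y => Dy f (shs s y) := by
  funext y
  simp only [Dy, shs_apply]

theorem Dx_iter_shs (s : ℤ) (f : Pt → ℝ) (i : ℕ) :
    Dx^[i] (fun y => f (shs s y)) = fun y => (Dx^[i] f) (shs s y) := by
  induction i generalizing f with
  | zero => rfl
  | succ i ih => rw [Function.iterate_succ_apply, Dx_shs, ih, Function.iterate_succ_apply]

theorem Dy_iter_shs (s : ℤ) (f : Pt → ℝ) (i : ℕ) :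
    Dy^[i] (fun y => f (shs s y)) = fun y => (Dy^[i] f) (shs s y) := by
  induction i generalizing f with
  | zero => rfl
  | succ i ih => rw [Function.iterate_succ_apply, Dy_shs, ih, Function.iterate_succ_apply]

theorem Dx_sub (f g : Pt → ℝ) : Dx (fun y => f y - g y) = fun y => Dx f y - Dx g y := by
  funext y
  simp only [Dx]
  ring

theorem Dy_sub (f g : Pt → ℝ) : Dy (fun y => f y - g y) = fun y => Dy f y - Dy g y := by
  funext y
  simp only [Dy]
  ring

theorem Dx_iter_sub (f g : Pt → ℝ) (i : ℕ) :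
    Dx^[i] (fun y => f y - g y) = fun y => (Dx^[i] f) y - (Dx^[i] g) y := by
  induction i generalizing f g with
  | zero => rfl
  | succ i ih => simp only [Function.iterate_succ_apply, Dx_sub, ih]

theorem Dy_iter_sub (f g : Pt → ℝ) (i : ℕ) :
    Dy^[i] (fun y => f y - g y) = fun y => (Dy^[i] f) y - (Dy^[i] g) y := by
  induction i generalizing f g with
  | zero => rfl
  | succ i ih => simp only [Function.iterate_succ_apply, Dy_sub, ih]

/-- the difference of a bump and its translate is a bump -/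
theorem isBump_diff {R : ℕ} {H : ℝ} {f : Pt → ℝ} (hf : IsBump (0, 0) R H f) {s : ℤ}
    (hs : ∀ y, y ∉ box (0, 0) R → f (shs s y) = 0) :
    IsBump (0, 0) R (2 * H) (fun y => f y - f (shs s y)) := by
  refine ⟨fun y hy => ?_, fun i j hij y => ?_⟩
  · simp only [hf.1 y hy, hs y hy, sub_zero]
  · rw [Dy_iter_sub, Dx_iter_sub, Dy_iter_shs, Dx_iter_shs]
    have h1 := hf.2 i j hij y
    have h2 := hf.2 i j hij (shs s y)
    calc |(Dx^[i] (Dy^[j] f)) y - (Dx^[i] (Dy^[j] f)) (shs s y)| ≤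
          |(Dx^[i] (Dy^[j] f)) y| + |(Dx^[i] (Dy^[j] f)) (shs s y)| := abs_sub _ _
      _ ≤ 2 * H * ((R : ℝ)⁻¹) ^ (i + j) := by linarith

theorem pos_shs (δ : ℝ) (a : ℂ) (s : ℤ) (y : Pt) :
    K.pos δ a (shs s y) = K.pos δ a y + ((δ * s : ℝ) : ℂ) := by
  apply Complex.ext
  · simp [K.pos, shs_apply]
    ring
  · simp [K.pos, shs_apply]

/-- distance in cells from positions -/
theorem dinf_cell_le {δ : ℝ} (hδ : 0 < δ) (a z : ℂ) (y : Pt) :
    δ * (dinf (K.cell δ a z) y : ℝ) ≤ dist (K.pos δ a y) z + δ := by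
  have h := (K.cell_eq_iff hδ (a := a) (z := z) (y := K.cell δ a z)).1 rfl
  obtain ⟨⟨h1, h2⟩, h3, h4⟩ := h
  set c := K.cell δ a z with hc
  have h5 : |(K.pos δ a y - z).re| ≤ dist (K.pos δ a y) z := by
    rw [dist_eq_norm]
    exact Complex.abs_re_le_norm _
  have h6 : |(K.pos δ a y - z).im| ≤ dist (K.pos δ a y) z := by
    rw [dist_eq_norm]
    exact Complex.abs_im_le_norm _
  generalize dist (K.pos δ a y) z = d at h5 h6 ⊢
  simp only [Complex.sub_re, Complex.sub_im, K.pos] at h5 h6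
  rw [abs_le] at h5 h6
  have h7 : δ * |((c.1 : ℝ) - y.1)| ≤ d + δ := by
    have e : δ * |((c.1 : ℝ) - y.1)| = |δ * ((c.1 : ℝ) - y.1)| := by rw [abs_mul, abs_of_pos hδ]
    rw [e, abs_le]
    constructor <;> nlinarith
  have h8 : δ * |((c.2 : ℝ) - y.2)| ≤ d + δ := by
    have e : δ * |((c.2 : ℝ) - y.2)| = |δ * ((c.2 : ℝ) - y.2)| := by rw [abs_mul, abs_of_pos hδ]
    rw [e, abs_le]
    constructor <;> nlinarith
  rcases le_total |c.1 - y.1| |c.2 - y.2| with h | h
  · have e : ((dinf c y : ℤ) : ℝ) = |((c.2 : ℝ) - y.2)| := by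
      unfold dinf
      rw [max_eq_right h]
      push_cast
      rfl
    rw [e]
    exact h8
  · have e : ((dinf c y : ℤ) : ℝ) = |((c.1 : ℝ) - y.1)| := by
      unfold dinf
      rw [max_eq_left h]
      push_cast
      rfl
    rw [e]
    exact h7

theorem isBump_mono {x : Pt} {t : ℕ} {H H' : ℝ} {f : Pt → ℝ} (h : IsBump x t H f) (hH : H ≤ H') :
    IsBump x t H' f := by
  refine ⟨h.1, fun a b hab y => (h.2 a b hab y).trans ?_⟩
  gcongr

/-- **Block (D1).** If the polygon contains the ball `B(z, 8ρ)`, there is a charge in the box of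
radius `⌊ρ/δ⌋` around the cell of `z`, of total mass `0`, with Green energy bounded below. -/
theorem exists_charge (z : ℂ) {ρ A : ℝ} (hρ : 0 < ρ) (hA : 0 < A) :
    ∃ C0 > 0, ∃ c0 > 0, ∀ (δ : ℝ) (a : ℂ) (T : Temp) (R : ℕ), 0 < δ → 32 * δ ≤ ρ →
      Metric.ball z (8 * ρ) ⊆ region δ a T.faceSet → Skel.Fits T R → 1 ≤ R → A ≤ δ * R →
      δ * R ≤ A + 1 → ∃ φ : Pt → ℝ, IsBump (0, 0) R (C0 / (R : ℝ) ^ 2) φ ∧
        (∀ y, y ∉ box (K.cell δ a z) ⌊ρ / δ⌋₊ → φ y = 0) ∧ ∑ᶠ y, φ y = 0 ∧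
        (∀ y, φ y ≠ 0 → (R : ℝ) ≤ C0 * dF T.faceSet y) ∧
        (∀ y, |φ y| ≤ C0 / (R : ℝ) ^ 2) ∧
        ∀ u, IsGreen T.faceSet φ u → c0 ≤ pair φ u := by
  let ψ : ContDiffBump z := ⟨ρ / 8, ρ / 4, by positivity, by linarith⟩
  obtain ⟨C1, hC1, hbump⟩ := K.isBump_phin (φ := ψ) ψ.contDiff ψ.hasCompactSupport (A := A + 1)
    (by positivity)
  set C0 : ℝ := 2 * C1 + (A + 1) / ρ + 1 with hC0
  have hC0p : 0 < C0 := by positivity
  refine ⟨C0, hC0p, (A ^ 2 * ρ ^ 2 / 1024) ^ 2 / (50 * C0 ^ 2), by positivity, ?_⟩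
  intro δ a T R hδ hδρ hball hfits hR hAR hRA
  have hfin := A1.faceSet_finite T
  have hR1 : (1 : ℝ) ≤ R := by exact_mod_cast hR
  have hR0 : (0 : ℝ) < R := by linarith
  set c : Pt := K.cell δ a z with hc
  set f : Pt → ℝ := K.phin δ a ψ with hf
  set s : ℤ := ((⌈ρ / (2 * δ)⌉₊ : ℕ) : ℤ) with hs
  have hs1 : ρ / 2 ≤ δ * s := by
    have h := Nat.le_ceil (ρ / (2 * δ))
    have h2 : ρ / (2 * δ) ≤ (s : ℝ) := by rw [hs]; exact_mod_cast h
    rw [div_le_iff₀ (by positivity)] at h2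
    linarith
  have hs2 : δ * s ≤ ρ / 2 + δ := by
    have h := (Nat.ceil_lt_add_one (a := ρ / (2 * δ)) (by positivity)).le
    have h2 : (s : ℝ) ≤ ρ / (2 * δ) + 1 := by rw [hs]; exact_mod_cast h
    calc δ * s ≤ δ * (ρ / (2 * δ) + 1) := by gcongr
      _ = ρ / 2 + δ := by field_simp
  -- supports
  have hf0 : ∀ y, f y ≠ 0 → dist (K.pos δ a y) z < ρ / 4 := by
    intro y hy
    have h1 : (ψ : ℂ → ℝ) (K.pos δ a y) ≠ 0 := right_ne_zero_of_mul hy
    have h2 : K.pos δ a y ∈ Function.support ψ := h1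
    rw [ψ.support_eq] at h2
    exact Metric.mem_ball.1 h2
  have hdist : ∀ y, dist (K.pos δ a (shs s y)) (K.pos δ a y) = δ * s := by
    intro y
    rw [pos_shs, dist_eq_norm, add_sub_cancel_left, Complex.norm_real, Real.norm_eq_abs,
      abs_of_nonneg (by linarith)]
  have hf1 : ∀ y, f (shs s y) ≠ 0 → dist (K.pos δ a y) z < 3 * ρ / 4 + δ := by
    intro y hy
    have h1 := hf0 _ hy
    have h2 := dist_triangle_left (K.pos δ a y) z (K.pos δ a (shs s y))
    rw [hdist y] at h2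
    linarith
  have hface : ∀ y, dist (K.pos δ a y) z < 3 * ρ / 4 + δ → y ∈ T.faceSet := fun y hy =>
    face_of_ball hδ hball (K.pos_mem_sqr a y) (by linarith)
  set φ : Pt → ℝ := fun y => f y - f (shs s y) with hφ
  have hφ0 : ∀ y, φ y ≠ 0 → dist (K.pos δ a y) z < 3 * ρ / 4 + δ := by
    intro y hy
    by_contra hn
    have h1 : f y = 0 := by
      by_contra h
      have := hf0 y h
      linarith
    have h2 : f (shs s y) = 0 := by
      by_contra h
      exact hn (hf1 y h)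
    exact hy (by simp only [hφ, h1, h2, sub_zero])
  have hfb : IsBump (0, 0) R (C1 / (R : ℝ) ^ 2) f := hbump δ a R hδ hR hRA (by
    intro y hy
    apply hfits
    apply hface y
    have : f y ≠ 0 := mul_ne_zero (by positivity) hy
    have := hf0 y this
    linarith)
  have hφb : IsBump (0, 0) R (C0 / (R : ℝ) ^ 2) φ := by
    refine isBump_mono (isBump_diff hfb (s := s) ?_) ?_
    · intro y hy
      by_contra h
      exact hy (hfits (hface y (hf1 y h)))
    · rw [← mul_div_assoc]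
      gcongr
      rw [hC0]
      have : 0 < (A + 1) / ρ := by positivity
      linarith
  have hcell : ∀ y, φ y ≠ 0 → δ * (dinf c y : ℝ) ≤ ρ := by
    intro y hy
    have h1 := dinf_cell_le hδ a z y
    have h2 := hφ0 y hy
    linarith
  have hbox : ∀ y, y ∉ box c ⌊ρ / δ⌋₊ → φ y = 0 := by
    intro y hy
    by_contra h
    apply hy
    rw [K.mem_box]
    have h1 := hcell y h
    have h2 : ((dinf c y : ℤ) : ℝ) ≤ ρ / δ := by
      rw [le_div_iff₀ hδ]
      linarith
    have h3 : (((dinf c y).toNat : ℕ) : ℝ) ≤ ρ / δ := by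
      have h4 : (((dinf c y).toNat : ℕ) : ℤ) = dinf c y := Int.toNat_of_nonneg (K.dinf_nonneg c y)
      have h5 : (((dinf c y).toNat : ℕ) : ℝ) = ((dinf c y : ℤ) : ℝ) := by exact_mod_cast h4
      rw [h5]
      exact h2
    have h4 := Nat.le_floor h3
    have h5 : (((dinf c y).toNat : ℕ) : ℤ) = dinf c y := Int.toNat_of_nonneg (K.dinf_nonneg c y)
    omega
  have hffin : K.Fin0 f := by
    refine K.Fin0.of_sub hfin (fun x hx => ?_)
    by_contra h
    exact hx (hface x (by have := hf0 x h; linarith))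
  have hffin' : K.Fin0 (fun y => f (shs s y)) := by
    refine K.Fin0.of_sub hfin (fun x hx => ?_)
    by_contra h
    exact hx (hface x (hf1 x h))
  -- the mass
  have hmass : ∑ᶠ y, φ y = 0 := by
    rw [hφ, K.fsum_sub hffin hffin', finsum_comp_equiv (shs s) (f := f), sub_self]
  -- the square norm
  set m' : ℕ := ⌊ρ / (32 * δ)⌋₊ with hm'
  have hm1 : δ * (m' : ℝ) ≤ ρ / 32 := by
    have h : (m' : ℝ) ≤ ρ / (32 * δ) := Nat.floor_le (by positivity)
    rw [le_div_iff₀ (by positivity)] at h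
    linarith
  have hm2 : ρ / 32 ≤ δ * (m' + 1) := by
    have h : ρ / (32 * δ) < (m' : ℝ) + 1 := Nat.lt_floor_add_one _
    rw [div_lt_iff₀ (by positivity)] at h
    linarith
  have hval : ∀ y ∈ box c m', φ y = δ ^ 2 := by
    intro y hy
    have h1 : K.pos δ a y ∈ Metric.ball z (ρ / 7) := pos_mem_ball hδ (by linarith) hy
    rw [Metric.mem_ball] at h1
    have h1' : dist (K.pos δ a y) z ≤ ρ / 8 := by
      have h9 := dist_pos_le hδ a z y
      rw [K.mem_box] at hy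
      have : ((dinf (K.cell δ a z) y : ℤ) : ℝ) ≤ m' := by exact_mod_cast hy
      nlinarith
    have h2 : f y = δ ^ 2 := by
      show δ ^ 2 * ψ (K.pos δ a y) = δ ^ 2
      rw [ψ.one_of_mem_closedBall (Metric.mem_closedBall.2 h1'), mul_one]
    have h3 : f (shs s y) = 0 := by
      by_contra h
      have h4 := hf0 _ h
      have h5 := dist_triangle (K.pos δ a (shs s y)) z (K.pos δ a y)
      rw [hdist y, dist_comm z] at h5
      linarith
    simp only [hφ, h2, h3, sub_zero]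
  have hsq : A ^ 2 * ρ ^ 2 / 1024 / (R : ℝ) ^ 2 ≤ pair φ φ := by
    have hsup : Function.support (fun x => φ x * φ x) ⊆
        ((box c ⌊ρ / δ⌋₊ ∪ box c m' : Finset Pt) : Set Pt) := by
      intro x hx
      by_contra hn
      rw [Finset.mem_coe, Finset.mem_union, not_or] at hn
      exact hx (by simp [hbox x hn.1])
    unfold pair
    rw [finsum_eq_sum_of_support_subset _ hsup]
    calc A ^ 2 * ρ ^ 2 / 1024 / (R : ℝ) ^ 2 ≤ (δ * (m' + 1)) ^ 2 * δ ^ 2 := by
          have h1 : (ρ / 32) ^ 2 ≤ (δ * ((m' : ℝ) + 1)) ^ 2 := by gcongr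
          have h2 : (A / R) ^ 2 ≤ δ ^ 2 := by
            have : A / R ≤ δ := by
              rw [div_le_iff₀ hR0]
              exact hAR
            gcongr
          calc A ^ 2 * ρ ^ 2 / 1024 / (R : ℝ) ^ 2 = (ρ / 32) ^ 2 * (A / R) ^ 2 := by ring
            _ ≤ _ := mul_le_mul h1 h2 (by positivity) (by positivity)
      _ ≤ (2 * (m' : ℝ) + 1) ^ 2 * (δ ^ 2 * δ ^ 2) := by
          have h1 : ((m' : ℝ) + 1) ^ 2 ≤ (2 * (m' : ℝ) + 1) ^ 2 := by
            have : (0 : ℝ) ≤ m' := Nat.cast_nonneg _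
            gcongr
            linarith
          calc (δ * (m' + 1)) ^ 2 * δ ^ 2 = ((m' : ℝ) + 1) ^ 2 * (δ ^ 2 * δ ^ 2) := by ring
            _ ≤ _ := by gcongr
      _ = ∑ _x ∈ box c m', (δ ^ 2 * δ ^ 2) := by
          rw [Finset.sum_const, card_box', nsmul_eq_mul]
          push_cast
          ring
      _ = ∑ x ∈ box c m', φ x * φ x := Finset.sum_congr rfl (fun x hx => by rw [hval x hx])
      _ ≤ ∑ x ∈ box c ⌊ρ / δ⌋₊ ∪ box c m', φ x * φ x :=
          Finset.sum_le_sum_of_subset_of_nonneg Finset.subset_union_right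
            (fun x _ _ => mul_self_nonneg _)
  refine ⟨φ, hφb, hbox, hmass, ?_, ?_, ?_⟩
  · intro y hy
    have h1 := dF_cell_ge hδ hfin hball
    have h2 := G45.dF_lip (G45.exists_notMem hfin) c y
    have h3 := hcell y hy
    have h4 : ((dn c y : ℕ) : ℝ) = ((dinf c y : ℤ) : ℝ) := by
      unfold dn
      have h4 : (((dinf c y).toNat : ℕ) : ℤ) = dinf c y := Int.toNat_of_nonneg (K.dinf_nonneg c y)
      exact_mod_cast h4
    have h5 : (dF T.faceSet c : ℝ) ≤ dF T.faceSet y + dn c y := by exact_mod_cast h2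
    rw [h4] at h5
    have h6 : ρ ≤ δ * (dF T.faceSet y : ℝ) := by
      have h7 : δ * (dF T.faceSet c : ℝ) ≤ δ * (dF T.faceSet y : ℝ) + δ * (dinf c y : ℝ) := by
        rw [← mul_add]
        gcongr
      linarith
    have h8 : (R : ℝ) ≤ (A + 1) / ρ * dF T.faceSet y := by
      rw [div_mul_eq_mul_div, le_div_iff₀ hρ]
      refine le_of_mul_le_mul_left (a := δ) ?_ hδ
      calc δ * ((R : ℝ) * ρ) = (δ * R) * ρ := by ring
        _ ≤ (A + 1) * (δ * (dF T.faceSet y : ℝ)) := by gcongr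
        _ = _ := by ring
    refine h8.trans ?_
    gcongr
    rw [hC0]
    linarith
  · intro y
    have h := hφb.2 0 0 (by norm_num) y
    simpa using h
  · intro u hu
    refine pair_ge hC0p hR hfin hφb (fun x hx => ?_) hsq (by positivity) hu
    by_contra h
    exact hx (hface x (hφ0 x h))

end Vale.Agent.P155.NT924
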