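import Vale.Agent.P155.NT924.YDef
import Vale.Agent.P155.U.P1
import Vale.Agent.P155.U.Inj

/-!
# P155, (R1a): the Green energy from the potential
-/

namespace Vale.Agent.P155.YD

open MeasureTheory Filter Topology TopologicalSpace Vale.Agent.P155 Vale.Agent.P155.Uq
open scoped ContDiff

/-! ## The truncation function -/

/-- derivative of the truncation function -/
noncomputable def et' (δ t : ℝ) : ℝ := Real.smoothTransition (t / δ - 1)

/-- the truncation function -/
noncomputable def et (δ t : ℝ) : ℝ := ∫ s in (0 : ℝ)..t, et' δ s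

variable {δ : ℝ}

theorem et'_smooth : ContDiff ℝ ∞ (et' δ) :=
  Real.smoothTransition.contDiff.comp ((contDiff_id.div_const δ).sub contDiff_const)

theorem et'_nonneg (t : ℝ) : 0 ≤ et' δ t := Real.smoothTransition.nonneg _

theorem et'_le (t : ℝ) : et' δ t ≤ 1 := Real.smoothTransition.le_one _

theorem et'_zero (hδ : 0 < δ) {t : ℝ} (h : t ≤ δ) : et' δ t = 0 :=
  Real.smoothTransition.zero_of_nonpos (by
    have : t / δ ≤ 1 := (div_le_one hδ).2 h
    linarith)

theorem et'_one (hδ : 0 < δ) {t : ℝ} (h : 2 * δ ≤ t) : et' δ t = 1 :=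
  Real.smoothTransition.one_of_one_le (by
    have : 2 ≤ t / δ := (le_div_iff₀ hδ).2 h
    linarith)

theorem et_hasDeriv (t : ℝ) : HasDerivAt (et δ) (et' δ t) t :=
  intervalIntegral.integral_hasDerivAt_right (et'_smooth.continuous.intervalIntegrable _ _)
    (et'_smooth.continuous.stronglyMeasurableAtFilter _ _) et'_smooth.continuous.continuousAt

theorem et_deriv : deriv (et δ) = et' δ := funext fun t => (et_hasDeriv t).deriv

theorem et_smooth : ContDiff ℝ ∞ (et δ) := by
  rw [contDiff_infty_iff_deriv]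
  refine ⟨fun t => (et_hasDeriv t).differentiableAt, ?_⟩
  rw [et_deriv]
  exact et'_smooth

theorem et_zero (hδ : 0 < δ) {t : ℝ} (h : t ≤ δ) : et δ t = 0 := by
  unfold et
  apply intervalIntegral.integral_zero_ae
  refine Eventually.of_forall fun s hs => et'_zero hδ ?_
  rcases Set.mem_uIoc.1 hs with h1 | h1
  · exact h1.2.trans h
  · exact h1.2.trans hδ.le

theorem et_sub (a b : ℝ) : et δ b - et δ a = ∫ s in a..b, et' δ s := by
  unfold et
  exact intervalIntegral.integral_interval_sub_left (et'_smooth.continuous.intervalIntegrable _ _)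
    (et'_smooth.continuous.intervalIntegrable _ _)

theorem et_nonneg (hδ : 0 < δ) (t : ℝ) : 0 ≤ et δ t := by
  rcases le_total t δ with h | h
  · rw [et_zero hδ h]
  · have h0 := et_sub (δ := δ) δ t
    rw [et_zero hδ le_rfl, sub_zero] at h0
    rw [h0]
    exact intervalIntegral.integral_nonneg h fun s _ => et'_nonneg s

theorem et_le (hδ : 0 < δ) {t : ℝ} (ht : 0 ≤ t) : et δ t ≤ t := by
  have h0 := et_sub (δ := δ) 0 t
  rw [et_zero hδ hδ.le, sub_zero] at h0
  rw [h0]
  calc ∫ s in (0 : ℝ)..t, et' δ s ≤ ∫ s in (0 : ℝ)..t, (1 : ℝ) :=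
        intervalIntegral.integral_mono_on ht (et'_smooth.continuous.intervalIntegrable _ _)
          (continuous_const.intervalIntegrable _ _) fun s _ => et'_le s
    _ = t := by simp

theorem le_et (hδ : 0 < δ) (t : ℝ) : t - 2 * δ ≤ et δ t := by
  rcases le_total t (2 * δ) with h | h
  · exact (by linarith : t - 2 * δ ≤ 0).trans (et_nonneg hδ t)
  · have h0 := et_sub (δ := δ) (2 * δ) t
    have h1 : ∫ s in (2 * δ)..t, et' δ s = t - 2 * δ := by
      rw [intervalIntegral.integral_congr (g := fun _ => (1 : ℝ))]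
      · simp
      · intro s hs
        rw [Set.uIcc_of_le h] at hs
        exact et'_one hδ hs.1
    have h2 := et_nonneg hδ (2 * δ)
    linarith

/-! ## The truncated potential -/

open Classical in
/-- the truncated potential -/
noncomputable def tr (U : Set ℂ) (u : ℂ → ℝ) (δ : ℝ) (x : ℂ) : ℝ := if x ∈ U then et δ (u x) else 0

variable {U : Set ℂ} {u φ : ℂ → ℝ}

theorem tr_near_off (hδ : 0 < δ) (hK : IsCompact {x | x ∈ U ∧ δ ≤ u x}) {x : ℂ}
    (hx : x ∉ {x | x ∈ U ∧ δ ≤ u x}) : tr U u δ =ᶠ[𝓝 x] fun _ => 0 := by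
  filter_upwards [hK.isClosed.isOpen_compl.mem_nhds hx] with y hy
  unfold tr
  split_ifs with h
  · apply et_zero hδ
    by_contra h1
    exact hy ⟨h, (not_le.1 h1).le⟩
  · rfl

theorem tr_near_on (hU : IsOpen U) {x : ℂ} (hx : x ∈ U) :
    tr U u δ =ᶠ[𝓝 x] fun y => et δ (u y) := by
  filter_upwards [hU.mem_nhds hx] with y hy
  simp [tr, hy]

theorem tr_test (hU : IsOpen U) (hs : ∀ x ∈ U, ContDiffAt ℝ ∞ u x)
    (hK : ∀ η : ℝ, 0 < η → IsCompact {x | x ∈ U ∧ η ≤ u x}) (hδ : 0 < δ) :
    IsTest U (tr U u δ) := by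
  have hsupp : Function.support (tr U u δ) ⊆ {x | x ∈ U ∧ δ ≤ u x} := by
    intro x hx
    by_contra h
    exact hx (tr_near_off hδ (hK δ hδ) h).self_of_nhds
  have hts : tsupport (tr U u δ) ⊆ {x | x ∈ U ∧ δ ≤ u x} :=
    closure_minimal hsupp (hK δ hδ).isClosed
  refine ⟨?_, (hK δ hδ).of_isClosed_subset (isClosed_tsupport _) hts, fun x hx => (hts hx).1⟩
  rw [contDiff_iff_contDiffAt]
  intro x
  by_cases hx : x ∈ U
  · exact ((et_smooth.contDiffAt).comp x (hs x hx)).congr_of_eventuallyEq (tr_near_on hU hx)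
  · exact contDiffAt_const.congr_of_eventuallyEq (tr_near_off hδ (hK δ hδ) fun h => hx h.1)

theorem tr_fderiv_on (hU : IsOpen U) (hs : ∀ x ∈ U, ContDiffAt ℝ ∞ u x) {x : ℂ} (hx : x ∈ U) :
    fderiv ℝ (tr U u δ) x = et' δ (u x) • fderiv ℝ u x := by
  rw [(tr_near_on hU hx).fderiv_eq]
  have h1 : HasFDerivAt u (fderiv ℝ u x) x :=
    ((hs x hx).differentiableAt (by norm_num)).hasFDerivAt
  exact ((et_hasDeriv (δ := δ) (u x)).comp_hasFDerivAt x h1).fderiv

theorem tr_fderiv_off (hδ : 0 < δ) (hK : IsCompact {x | x ∈ U ∧ δ ≤ u x}) {x : ℂ} (hx : x ∉ U) :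
    fderiv ℝ (tr U u δ) x = 0 := by
  rw [(tr_near_off hδ hK fun h => hx h.1).fderiv_eq]
  simp

/-- the gradient product -/
noncomputable def gp (u w : ℂ → ℝ) (x : ℂ) : ℝ :=
  fderiv ℝ u x 1 * fderiv ℝ w x 1 + fderiv ℝ u x Complex.I * fderiv ℝ w x Complex.I

theorem gp_self (w : ℂ → ℝ) (x : ℂ) : gp w w x = ‖fderiv ℝ w x‖ ^ 2 := by
  rw [U.norm_sq_clm]
  unfold gp
  ring

theorem integrable_gp {a b : ℂ → ℝ} (ha : ContDiff ℝ ∞ a) (hb : ContDiff ℝ ∞ b)
    (hbc : HasCompactSupport b) : Integrable (gp a b) := by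
  have h : ∀ e : ℂ, Integrable (fun z => fderiv ℝ a z e * fderiv ℝ b z e) := by
    intro e
    apply Continuous.integrable_of_hasCompactSupport
    · exact (U.smooth_dir ha e).continuous.mul (U.smooth_dir hb e).continuous
    · exact (hbc.fderiv_apply ℝ e).mul_left
  exact (h 1).add (h Complex.I)

theorem integral_mul_tr_le (hφ : IsTest U φ) (hφ0 : ∀ x, 0 ≤ φ x) (hu : ∀ x ∈ U, 0 < u x)
    (hU : IsOpen U) (hs : ∀ x ∈ U, ContDiffAt ℝ ∞ u x)
    (hK : ∀ η : ℝ, 0 < η → IsCompact {x | x ∈ U ∧ η ≤ u x}) (hδ : 0 < δ) :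
    ∫ x, φ x * tr U u δ x ≤ ∫ x, φ x * u x ∧
      (∫ x, φ x * u x) - 2 * δ * (∫ x, φ x) ≤ ∫ x, φ x * tr U u δ x := by
  have hv := tr_test hU hs hK hδ
  have hz : ∀ x, x ∉ U → φ x = 0 := fun x hx => by
    by_contra h
    exact hx (hφ.2.2 (subset_tsupport _ h))
  have hcu : Continuous (fun x => φ x * u x) := by
    rw [continuous_iff_continuousAt]
    intro x
    by_cases hx : x ∈ U
    · exact hφ.1.continuous.continuousAt.mul (hs x hx).continuousAt
    · have h1 : x ∉ tsupport φ := fun h => hx (hφ.2.2 h)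
      have h2 : (fun x => φ x * u x) =ᶠ[𝓝 x] fun _ => 0 := by
        filter_upwards [(isClosed_tsupport φ).isOpen_compl.mem_nhds h1] with y hy
        rw [image_eq_zero_of_notMem_tsupport hy, zero_mul]
      exact continuousAt_const.congr h2.symm
  have iu : Integrable (fun x => φ x * u x) :=
    hcu.integrable_of_hasCompactSupport hφ.2.1.mul_right
  have iv : Integrable (fun x => φ x * tr U u δ x) :=
    (hφ.1.continuous.mul hv.1.continuous).integrable_of_hasCompactSupport hφ.2.1.mul_right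
  have i0 : Integrable φ := hφ.1.continuous.integrable_of_hasCompactSupport hφ.2.1
  constructor
  · apply integral_mono iv iu
    intro x
    by_cases hx : x ∈ U
    · simp only [tr, hx, if_true]
      exact mul_le_mul_of_nonneg_left (et_le hδ (hu x hx).le) (hφ0 x)
    · simp [hz x hx]
  · have e0 : ∫ x, (φ x * u x - 2 * δ * φ x) = (∫ x, φ x * u x) - 2 * δ * (∫ x, φ x) := by
      rw [integral_sub iu (i0.const_mul (2 * δ)), integral_const_mul]
    rw [← e0]
    apply integral_mono (iu.sub (i0.const_mul _)) iv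
    intro x
    by_cases hx : x ∈ U
    · simp only [tr, hx, if_true]
      have := mul_le_mul_of_nonneg_left (le_et hδ (u x)) (hφ0 x)
      simp only [Pi.sub_apply]
      linarith
    · simp [hz x hx]

theorem r1a : R1a := by
  intro U φ u hU hb hφ hφ0 hu hs hK hw
  have hK' := hK
  have hz : ∀ x, x ∉ U → φ x = 0 := fun x hx => by
    by_contra h
    exact hx (hφ.2.2 (subset_tsupport _ h))
  have up : ∀ v, IsTest U v → 2 * (∫ z, φ z * v z) - ∫ z, ‖fderiv ℝ v z‖ ^ 2 ≤
      ∫ x, φ x * u x := by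
    intro v hv
    -- choose `δ` with `2 δ ≤ u` on the support of `v`
    obtain ⟨δ, hδ, hδv⟩ : ∃ δ : ℝ, 0 < δ ∧ ∀ x ∈ tsupport v, 2 * δ ≤ u x := by
      rcases (tsupport v).eq_empty_or_nonempty with h | h
      · exact ⟨1, one_pos, by simp [h]⟩
      · have hc : ContinuousOn u (tsupport v) := fun x hx =>
          (hs x (hv.2.2 hx)).continuousAt.continuousWithinAt
        obtain ⟨y, hy, hmin⟩ := hv.2.1.isCompact.exists_isMinOn h hc
        refine ⟨u y / 2, half_pos (hu y (hv.2.2 hy)), fun x hx => ?_⟩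
        have := hmin hx
        simp only [Set.mem_ofPred_eq] at this
        linarith
    have ht := tr_test hU hs hK hδ
    have e1 : ∀ x, gp u v x = gp (tr U u δ) v x := by
      intro x
      by_cases hx : x ∈ tsupport v
      · unfold gp
        rw [tr_fderiv_on hU hs (hv.2.2 hx), et'_one hδ (hδv x hx), one_smul]
      · have : fderiv ℝ v x = 0 := by
          have h2 : x ∉ tsupport (fderiv ℝ v) := fun h => hx (tsupport_fderiv_subset ℝ h)
          exact image_eq_zero_of_notMem_tsupport h2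
        simp [gp, this]
    have e2 : ∫ x, φ x * v x = ∫ x, gp (tr U u δ) v x := by
      rw [hw v hv]
      exact integral_congr_ae (Eventually.of_forall e1)
    have e3 : ∫ x, φ x * tr U u δ x = ∫ x, gp u (tr U u δ) x := hw _ ht
    have i1 := integrable_gp ht.1 hv.1 hv.2.1
    have i2 : Integrable (fun x => ‖fderiv ℝ v x‖ ^ 2) := by
      have := integrable_gp hv.1 hv.1 hv.2.1
      exact this.congr (Eventually.of_forall fun x => gp_self v x)
    have i3 : Integrable (fun x => ‖fderiv ℝ (tr U u δ) x‖ ^ 2) := by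
      have := integrable_gp ht.1 ht.1 ht.2.1
      exact this.congr (Eventually.of_forall fun x => gp_self _ x)
    have h4 : 2 * (∫ z, φ z * v z) - ∫ z, ‖fderiv ℝ v z‖ ^ 2 ≤
        ∫ z, ‖fderiv ℝ (tr U u δ) z‖ ^ 2 := by
      have e0 : ∫ x, (2 * gp (tr U u δ) v x - ‖fderiv ℝ v x‖ ^ 2) =
          2 * (∫ x, gp (tr U u δ) v x) - ∫ x, ‖fderiv ℝ v x‖ ^ 2 := by
        rw [integral_sub (i1.const_mul 2) i2, integral_const_mul]
      rw [e2, ← e0]
      apply integral_mono ((i1.const_mul 2).sub i2) i3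
      intro x
      simp only [Pi.sub_apply]
      rw [← gp_self, ← gp_self]
      unfold gp
      nlinarith [sq_nonneg (fderiv ℝ v x 1 - fderiv ℝ (tr U u δ) x 1),
        sq_nonneg (fderiv ℝ v x Complex.I - fderiv ℝ (tr U u δ) x Complex.I)]
    -- the energy of the truncation
    have iu : Integrable (gp u (tr U u δ)) := by
      -- the gradient product with `u` agrees with the one with a finer truncation
      have hδ2 : 0 < δ / 2 := by positivity
      have ht2 := tr_test hU hs hK hδ2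
      refine (integrable_gp ht2.1 ht.1 ht.2.1).congr (Eventually.of_forall fun x => ?_)
      by_cases hx : x ∈ U
      · by_cases h5 : δ ≤ u x
        · unfold gp
          rw [tr_fderiv_on (δ := δ / 2) hU hs hx, et'_one hδ2 (by linarith), one_smul]
        · have : fderiv ℝ (tr U u δ) x = 0 := by
            rw [tr_fderiv_on hU hs hx, et'_zero hδ (not_le.1 h5).le, zero_smul]
          simp [gp, this]
      · have : fderiv ℝ (tr U u δ) x = 0 := tr_fderiv_off hδ (hK δ hδ) hx
        simp [gp, this]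
    have h5 : ∫ z, ‖fderiv ℝ (tr U u δ) z‖ ^ 2 ≤ ∫ x, φ x * tr U u δ x := by
      rw [e3]
      apply integral_mono i3 iu
      intro x
      simp only
      rw [← gp_self]
      by_cases hx : x ∈ U
      · unfold gp
        rw [tr_fderiv_on hU hs hx]
        simp only [_root_.smul_apply, smul_eq_mul]
        have a1 := et'_nonneg (δ := δ) (u x)
        have a2 := et'_le (δ := δ) (u x)
        have a3 : et' δ (u x) * et' δ (u x) ≤ et' δ (u x) := by nlinarith
        have a4 := mul_le_mul_of_nonneg_right a3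
          (add_nonneg (sq_nonneg (fderiv ℝ u x 1)) (sq_nonneg (fderiv ℝ u x Complex.I)))
        nlinarith
      · have : fderiv ℝ (tr U u δ) x = 0 := tr_fderiv_off hδ (hK δ hδ) hx
        simp [gp, this]
    exact h4.trans (h5.trans (integral_mul_tr_le hφ hφ0 hu hU hs hK hδ).1)
  apply le_antisymm (Vale.Agent.P155.U.greenEnergy_le up)
  -- the lower bound
  have hbd : BddAbove {x | ∃ v, IsTest U v ∧ x = 2 * (∫ z, φ z * v z) -
      ∫ z, ‖fderiv ℝ v z‖ ^ 2} := ⟨∫ x, φ x * u x, by
    rintro x ⟨v, hv, rfl⟩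
    exact up v hv⟩
  have low : ∀ δ : ℝ, 0 < δ → (∫ x, φ x * u x) - 2 * δ * (∫ x, φ x) ≤ greenEnergy U φ := by
    intro δ hδ
    have ht := tr_test hU hs hK hδ
    refine (integral_mul_tr_le hφ hφ0 hu hU hs hK hδ).2.trans ?_
    refine le_trans ?_ (le_csSup hbd ⟨_, ht, rfl⟩)
    have e3 : ∫ x, φ x * tr U u δ x = ∫ x, gp u (tr U u δ) x := hw _ ht
    have i3 : Integrable (fun x => ‖fderiv ℝ (tr U u δ) x‖ ^ 2) := by
      have := integrable_gp ht.1 ht.1 ht.2.1
      exact this.congr (Eventually.of_forall fun x => gp_self _ x)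
    have iu : Integrable (gp u (tr U u δ)) := by
      have hδ2 : 0 < δ / 2 := by positivity
      have ht2 := tr_test hU hs hK hδ2
      refine (integrable_gp ht2.1 ht.1 ht.2.1).congr (Eventually.of_forall fun x => ?_)
      by_cases hx : x ∈ U
      · by_cases h5 : δ ≤ u x
        · unfold gp
          rw [tr_fderiv_on (δ := δ / 2) hU hs hx, et'_one hδ2 (by linarith), one_smul]
        · have : fderiv ℝ (tr U u δ) x = 0 := by
            rw [tr_fderiv_on hU hs hx, et'_zero hδ (not_le.1 h5).le, zero_smul]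
          simp [gp, this]
      · have : fderiv ℝ (tr U u δ) x = 0 := tr_fderiv_off hδ (hK δ hδ) hx
        simp [gp, this]
    have h5 : ∫ z, ‖fderiv ℝ (tr U u δ) z‖ ^ 2 ≤ ∫ x, φ x * tr U u δ x := by
      rw [e3]
      apply integral_mono i3 iu
      intro x
      simp only
      rw [← gp_self]
      by_cases hx : x ∈ U
      · unfold gp
        rw [tr_fderiv_on hU hs hx]
        simp only [_root_.smul_apply, smul_eq_mul]
        have a1 := et'_nonneg (δ := δ) (u x)
        have a2 := et'_le (δ := δ) (u x)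
        have a3 : et' δ (u x) * et' δ (u x) ≤ et' δ (u x) := by nlinarith
        have a4 := mul_le_mul_of_nonneg_right a3
          (add_nonneg (sq_nonneg (fderiv ℝ u x 1)) (sq_nonneg (fderiv ℝ u x Complex.I)))
        nlinarith
      · have : fderiv ℝ (tr U u δ) x = 0 := tr_fderiv_off hδ (hK δ hδ) hx
        simp [gp, this]
    linarith
  have hm : 0 ≤ ∫ x, φ x := integral_nonneg hφ0
  apply le_of_forall_pos_lt_add
  intro ε hε
  have := low (ε / (2 * (∫ x, φ x) + 1) / 2) (by positivity)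
  have h6 : 2 * (ε / (2 * (∫ x, φ x) + 1) / 2) * ∫ x, φ x < ε := by
    have h7 : 2 * (ε / (2 * (∫ x, φ x) + 1) / 2) * ∫ x, φ x =
      ε * ((∫ x, φ x) / (2 * (∫ x, φ x) + 1)) := by ring
    rw [h7]
    have h8 : (∫ x, φ x) / (2 * (∫ x, φ x) + 1) < 1 := by
      rw [div_lt_one (by positivity)]
      linarith
    nlinarith
  linarith

end Vale.Agent.P155.YD
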